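/-
Row 210 (S0432), layer BE (Bakry-Emery gradient estimates, Sobolev-to-Lipschitz, regularisation).
Architect of the layer: helper471.   Definitions of the layer.
-/
import Claimed.Agent.R210.Defs2

set_option autoImplicit false

open Claims.C0366 Claims.C0366.WeakHessian
open Set Filter MeasureTheory
open scoped ENNReal NNReal Topology

namespace Claimed.Agent.R210.BE.Defs

noncomputable section

variable {X : Type*} [MetricSpace X] [MeasurableSpace X] [BorelSpace X]

/-- Density (w.r.t. `m`) of the normalised restriction of `m` to `closedBall x ϱ`. -/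
def be_nb (m : Measure X) (x : X) (ϱ : ℝ) : X → ℝ :=
  (Metric.closedBall x ϱ).indicator (fun _ => ((m (Metric.closedBall x ϱ)).toReal)⁻¹)

/-- The average of `u` over `closedBall x ϱ`, written as `∫ u · be_nb`. -/
def be_av (m : Measure X) (u : X → ℝ) (x : X) (ϱ : ℝ) : ℝ := ∫ z, u z * be_nb m x ϱ z ∂m

/-- The slope at scale `r`: `sup { |f x - f y| / d(x,y) : 0 < d(x,y) < r }`. -/
def be_G (f : X → ℝ) (r : ℝ) (x : X) : ℝ :=
  ⨆ y : X, if 0 < dist x y ∧ dist x y < r then |f x - f y| / dist x y else 0

/-- The frozen local slope, as a real number. -/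
def be_slope (f : X → ℝ) (x : X) : ℝ := (localSlope f x).toReal

/-- `I_K(t) = ∫_0^t e^{2Ks} ds`. -/
def be_I (K t : ℝ) : ℝ := (Real.exp (2 * K * t) - 1) / (2 * K)

end

end Claimed.Agent.R210.BE.Defs
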