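/-
Row 210 (S0432), layer BE.  What BE needs from the upstream layers (CD, CU, EV, TP/GC, GCD/HS/HF, RS+ID),
each statement proved from the interface file of the upstream layer.
-/
import Claimed.Agent.R210.BE.Defs
import Claimed.Agent.R210.CD.Ifc
import Claimed.Agent.R210.CU.Ifc
import Claimed.Agent.R210.EV.Ifc
import Claimed.Agent.R210.GC.Ifc
import Claimed.Agent.R210.GCD.Ifc

set_option autoImplicit false

open Claims.C0366 Claims.C0366.WeakHessian
open Set Filter MeasureTheory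
open scoped ENNReal NNReal Topology RealInnerProductSpace

namespace Claimed.Agent.R210.BE.Need

open Claimed.Agent.R210.Defs Claimed.Agent.R210.Defs2 Claimed.Agent.R210.HS.Defs
  Claimed.Agent.R210.BE.Defs
open Claimed.Agent.R210.GC.Defs Claimed.Agent.R210.GC.WG Claimed.Agent.R210.GC.Gam
  Claimed.Agent.R210.GC.Conv Claimed.Agent.R210.GCD.Ifc

variable {X : Type*} [MetricSpace X] [MeasurableSpace X] [BorelSpace X]
  [CompleteSpace X] [TopologicalSpace.SeparableSpace X] [ProperSpace X]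
variable {m : Measure X} {K N : ℝ}

/-! ### CD2 -/

theorem be_need_doubling (hS : Std m K N) : IsUnifLocDoublingMeasure m :=
  Claimed.Agent.R210.CD.Ifc.cd_unifLocDoubling hS

/-! ### EV3 (for normalised closed balls) -/

theorem be_need_nb_BS (hS : Std m K N) (x o : X) {ϱ : ℝ} (hϱ : 0 < ϱ) :
    Claimed.Agent.R210.EV.Defs.ev_BS m o (dist x o + ϱ)
      ((m (Metric.closedBall x ϱ)).toReal)⁻¹ (be_nb m x ϱ) := by
  have hpos : 0 < (m (Metric.closedBall x ϱ)).toReal := by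
    refine ENNReal.toReal_pos ?_ (hS.finite _ Metric.isBounded_closedBall).ne
    have h1 : 0 < m (Metric.ball x ϱ) :=
      hS.full _ Metric.isOpen_ball ⟨x, Metric.mem_ball_self hϱ⟩
    exact (h1.trans_le (measure_mono Metric.ball_subset_closedBall)).ne'
  refine ⟨(measurable_const.indicator measurableSet_closedBall).aestronglyMeasurable,
    Eventually.of_forall fun z => Set.indicator_nonneg
      (fun _ _ => inv_nonneg.2 ENNReal.toReal_nonneg) z,
    Eventually.of_forall fun z => Set.indicator_le_self'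
      (fun _ _ => inv_nonneg.2 ENNReal.toReal_nonneg) z,
    Eventually.of_forall fun z hz => ?_, ?_⟩
  · have : z ∉ Metric.closedBall x ϱ := by
      intro hz'
      apply hz
      rw [Metric.mem_closedBall] at hz' ⊢
      linarith [dist_triangle z x o]
    simp [be_nb, this]
  · unfold be_nb
    rw [integral_indicator_const _ measurableSet_closedBall, smul_eq_mul, Measure.real]
    exact mul_inv_cancel₀ hpos.ne'

theorem be_need_contraction (hS : Std m K N) (x y : X) {ϱ t : ℝ} (hϱ : 0 < ϱ) (ht : 0 ≤ t) :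
    W2sq (dens m (heatF m t (be_nb m x ϱ))) (dens m (heatF m t (be_nb m y ϱ))) ≤
      ENNReal.ofReal (Real.exp (-2 * K * t)) *
        W2sq (dens m (be_nb m x ϱ)) (dens m (be_nb m y ϱ)) :=
  Claimed.Agent.R210.EV.Ifc.ev_contraction hS (be_need_nb_BS hS x x hϱ) (be_need_nb_BS hS y x hϱ) ht

/-! ### CU5, CU6 -/

theorem be_need_geoPlan_test {μ ν : Measure X} {π : Measure (Curve X)} {C : ℝ≥0}
    (h : GeoPlan m μ ν π C) : IsTestPlan m π :=
  Claimed.Agent.R210.CU.Ifc.cu_testPlan_of_geoPlan h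

theorem be_need_geodesic_speed {γ : Curve X} (h : IsGeodesic γ) {t : ℝ} (ht : t ∈ Ioo (0 : ℝ) 1) :
    metricSpeed γ t = ENNReal.ofReal (dist (γ timeZero) (γ timeOne)) :=
  Claimed.Agent.R210.CU.Ifc.cu_speed_geodesic h ht

/-! ### TP / GC-B / GC-C : calculus for the frozen notions -/

/-- TP2: the weak gradient only depends on the a.e. class (equality of functions). -/
theorem be_need_wg_congr {f g : X → ℝ} (h : f =ᵐ[m] g) : weakGradient m f = weakGradient m g :=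
  gc_wg_congr h

theorem be_need_localSobolev_congr {f g : X → ℝ} (h : f =ᵐ[m] g) (hf : LocalSobolev m f) :
    LocalSobolev m g :=
  gc_ls_congr h hf

theorem be_need_sobolev_congr {f g : X → ℝ} (h : f =ᵐ[m] g) (hf : Sobolev m f) :
    Sobolev m g :=
  gc_sob_congr h hf

theorem be_need_wg_nonneg (f : X → ℝ) : ∀ᵐ x ∂m, 0 ≤ weakGradient m f x :=
  gc_wg_nonneg f

/-- TP4 / GC-C -/
theorem be_need_lipschitz (hS : Std m K N) {g : X → ℝ} {L : ℝ≥0} (hg : LipschitzWith L g) :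
    LocalSobolev m g ∧ ∀ᵐ x ∂m, ENNReal.ofReal (weakGradient m g x) ≤ localSlope g x :=
  ⟨gc_ls_of_lipLoc hS.finite (gc_lipLoc_of_lip ⟨L, hg⟩),
    gc_wg_le_slope hS.finite (gc_lipLoc_of_lip ⟨L, hg⟩)⟩

theorem be_need_lipC_sobolev (hS : Std m K N) {f : X → ℝ} (hf : LipC f) : Sobolev m f :=
  gc_sob_of_lipC hS.finite hf

/-- TP3 -/
theorem be_need_wg_sub (hS : Std m K N) {u v : X → ℝ} (hu : Sobolev m u) (hv : Sobolev m v) :
    Sobolev m (fun x => u x - v x) ∧
      ∀ᵐ x ∂m, |weakGradient m u x - weakGradient m v x| ≤ weakGradient m (fun y => u y - v y) x :=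
  ⟨gc_sob_sub hS.finite hu hv, gc_wg_abs_sub_le hS.finite hu.2.1 hv.2.1⟩

theorem be_need_gamma_self (hS : Std m K N) {f : X → ℝ} (hf : LocalSobolev m f) :
    ∀ᵐ x ∂m, gamma m f f x = weakGradient m f x ^ 2 :=
  gc_gamma_self hS.finite hf

theorem be_need_gamma_symm (hS : Std m K N) {f g : X → ℝ} (hf : Sobolev m f) (hg : Sobolev m g) :
    ∀ᵐ x ∂m, gamma m f g x = gamma m g f x :=
  gc_gamma_comm hS.finite hf.2.1 hg.2.1

theorem be_need_gamma_integrable (hS : Std m K N) {f g : X → ℝ} (hf : Sobolev m f)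
    (hg : Sobolev m g) : Integrable (gamma m f g) m :=
  gc_gamma_integrable hS hf hg

theorem be_need_mul_sobolev (hS : Std m K N) {f g : X → ℝ} {B B' : ℝ} (hf : Sobolev m f)
    (hg : Sobolev m g) (hfB : AEBdd m f B) (hgB : AEBdd m g B') :
    Sobolev m (fun x => f x * g x) :=
  gc_sob_mul hS.finite hf hg hfB hgB

/-- Leibniz rule in the second slot -/
theorem be_need_leibniz (hS : Std m K N) {f g h : X → ℝ} {B B' : ℝ} (hf : Sobolev m f)
    (hg : Sobolev m g) (hh : Sobolev m h) (hgB : AEBdd m g B) (hhB : AEBdd m h B') :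
    ∀ᵐ x ∂m, gamma m f (fun y => g y * h y) x = g x * gamma m f h x + h x * gamma m f g x :=
  gc_gamma_mul_right hS hg.2.1 hh.2.1 (gc_sob_mul hS.finite hg hh hgB hhB).2.1 hf.2.1

/-! ### RS3 + ID2 : approximation by Lipschitz functions with convergence of the SLOPES -/

theorem be_need_approx (hS : Std m K N) {f : X → ℝ} (hf : Sobolev m f) :
    ∃ fs : ℕ → X → ℝ, (∀ n, LipC (fs n)) ∧
      Tendsto (fun n => eLpNorm (fun x => fs n x - f x) 2 m) atTop (𝓝 0) ∧
      Tendsto (fun n => eLpNorm (fun x => be_slope (fs n) x - weakGradient m f x) 2 m)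
        atTop (𝓝 0) :=
  gc_lip_slope_approx hS hf

/-! ### GC-D / HS3 / HS4 / HF1 : the heat flow -/

theorem be_need_flow_continuous (hS : Std m K N) (F : Lp ℝ 2 m) :
    Continuous (fun r : ℝ => flow (ChL2 m) r F) :=
  Claimed.Agent.R210.HS.Ifc.hs_flow_continuous (gcd_qform hS) F

theorem be_need_flow_deriv (hS : Std m K N) (F : Lp ℝ 2 m) {s : ℝ} (hs : 0 < s) :
    ∃ W : Lp ℝ 2 m, HasDerivAt (fun r : ℝ => flow (ChL2 m) r F) W s ∧
      IsLaplacian m ((flow (ChL2 m) s F : Lp ℝ 2 m) : X → ℝ) (W : X → ℝ) := by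
  have hF : MemLp (F : X → ℝ) 2 m := Lp.memLp F
  have hFF : hF.toLp (F : X → ℝ) = F := gcd_toLp_coe F hF
  have h1 := gcd_heatF_hasDerivAt_Lp hS hs hF
  rw [hFF] at h1
  refine ⟨_, h1, ?_⟩
  have h2 : IsLaplacian m (heatF m s (F : X → ℝ)) (laplacian m (heatF m s (F : X → ℝ))) :=
    gcd_laplacian_spec (gcd_heatF_inDomain hS hs hF)
  have h3 : heatF m s (F : X → ℝ) = ((flow (ChL2 m) s F : Lp ℝ 2 m) : X → ℝ) := by
    rw [gcd_heatF_eq hF s, hFF]
  rw [← h3]
  exact gcd_isLaplacian_congr hS (ae_eq_refl _) (MemLp.coeFn_toLp _).symm h2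

theorem be_need_heat_semigroup (hS : Std m K N) {f : X → ℝ} (hf : MemLp f 2 m) {s r : ℝ}
    (hs : 0 ≤ s) (hr : 0 ≤ r) : heatF m s (heatF m r f) =ᵐ[m] heatF m (s + r) f := by
  rw [gcd_heatF_add_time hS hs hr hf]

theorem be_need_heat_sub (hS : Std m K N) {f g : X → ℝ} (hf : MemLp f 2 m) (hg : MemLp g 2 m)
    (t : ℝ) : heatF m t (fun x => f x - g x) =ᵐ[m] fun x => heatF m t f x - heatF m t g x :=
  gcd_heatF_sub hS t hf hg

theorem be_need_heat_norm (hS : Std m K N) {f : X → ℝ} (hf : MemLp f 2 m) (t : ℝ) :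
    eLpNorm (heatF m t f) 2 m ≤ eLpNorm f 2 m :=
  gcd_heatF_eLpNorm_le hS t hf

theorem be_need_heat_symm (hS : Std m K N) {f g : X → ℝ} (hf : MemLp f 2 m) (hg : MemLp g 2 m)
    (t : ℝ) : ∫ x, heatF m t f x * g x ∂m = ∫ x, f x * heatF m t g x ∂m :=
  gcd_heatF_symm hS t hf hg

theorem be_need_heat_bdd (hS : Std m K N) {f : X → ℝ} {B : ℝ} (hf : MemLp f 2 m)
    (hB : AEBdd m f B) (t : ℝ) : AEBdd m (heatF m t f) B :=
  gcd_heatF_aebdd hS t hf hB

theorem be_need_heat_nonneg (hS : Std m K N) {f : X → ℝ} (hf : MemLp f 2 m)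
    (h0 : ∀ᵐ x ∂m, 0 ≤ f x) (t : ℝ) : ∀ᵐ x ∂m, 0 ≤ heatF m t f x :=
  gcd_heatF_nonneg hS t hf h0

theorem be_need_heat_L1 (hS : Std m K N) {f : X → ℝ} (hf : MemLp f 2 m) (hf1 : Integrable f m)
    (h0 : ∀ᵐ x ∂m, 0 ≤ f x) (t : ℝ) :
    Integrable (heatF m t f) m ∧ ∫ x, heatF m t f x ∂m ≤ ∫ x, f x ∂m := by
  obtain ⟨h1, h2⟩ := gcd_heatF_L1 hS t hf hf1
  refine ⟨h1, ?_⟩
  have e1 : ∫ x, |heatF m t f x| ∂m = ∫ x, heatF m t f x ∂m := by
    refine integral_congr_ae ?_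
    filter_upwards [gcd_heatF_nonneg hS t hf h0] with x hx
    exact abs_of_nonneg hx
  have e2 : ∫ x, |f x| ∂m = ∫ x, f x ∂m := by
    refine integral_congr_ae ?_
    filter_upwards [h0] with x hx
    exact abs_of_nonneg hx
  rwa [e1, e2] at h2

theorem be_need_heat_energy (hS : Std m K N) {f : X → ℝ} (hf : MemLp f 2 m) {t : ℝ} (ht : 0 < t) :
    Sobolev m (heatF m t f) ∧ energy m (heatF m t f) ≤ (∫ x, f x ^ 2 ∂m) / t :=
  ⟨gcd_heatF_sobolev hS ht hf, gcd_heatF_energy_bound hS ht hf⟩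

theorem be_need_laplace (hS : Std m K N) {f h : X → ℝ} (hf : MemLp f 2 m) (hh : MemLp h 2 m)
    {δ : ℝ} (hδ : 0 < δ) :
    ∫ x, resF m δ f x * h x ∂m =
      ∫ t in Ioi (0 : ℝ), δ⁻¹ * Real.exp (-t / δ) * ∫ x, heatF m t f x * h x ∂m :=
  gcd_laplace hS hδ hf hh

end Claimed.Agent.R210.BE.Need
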