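/-
Row 210 (S0432), layer BE.  Elementary facts on `heatF`, `resF` (from the definitions and `BE/Need.lean`).
-/
import Claimed.Agent.R210.BE.Need

set_option autoImplicit false

open Claims.C0366 Claims.C0366.WeakHessian
open Set Filter MeasureTheory
open scoped ENNReal NNReal Topology

namespace Claimed.Agent.R210.BE.Heat

open Claimed.Agent.R210.Defs Claimed.Agent.R210.Defs2 Claimed.Agent.R210.HS.Defs
  Claimed.Agent.R210.BE.Defs Claimed.Agent.R210.BE.Need

variable {X : Type*} [MetricSpace X] [MeasurableSpace X] [BorelSpace X]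
  [CompleteSpace X] [TopologicalSpace.SeparableSpace X] [ProperSpace X]
variable {m : Measure X} {K N : ℝ}

theorem be_heat_coe {f : X → ℝ} (hf : MemLp f 2 m) (t : ℝ) :
    heatF m t f = ((flow (ChL2 m) t (hf.toLp f) : Lp ℝ 2 m) : X → ℝ) := by
  simp [heatF, hf]

theorem be_res_coe {f : X → ℝ} (hf : MemLp f 2 m) (δ : ℝ) :
    resF m δ f = ((prox (ChL2 m) δ (hf.toLp f) : Lp ℝ 2 m) : X → ℝ) := by
  simp [resF, hf]

theorem be_heat_memLp (t : ℝ) (f : X → ℝ) : MemLp (heatF m t f) 2 m := by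
  by_cases hf : MemLp f 2 m
  · rw [be_heat_coe hf]; exact Lp.memLp _
  · have : heatF m t f = 0 := by simp [heatF, hf]
    rw [this]; exact MemLp.zero

theorem be_res_memLp (δ : ℝ) (f : X → ℝ) : MemLp (resF m δ f) 2 m := by
  by_cases hf : MemLp f 2 m
  · rw [be_res_coe hf]; exact Lp.memLp _
  · have : resF m δ f = 0 := by simp [resF, hf]
    rw [this]; exact MemLp.zero

theorem be_heat_zero {f : X → ℝ} (hf : MemLp f 2 m) : heatF m 0 f =ᵐ[m] f := by
  rw [be_heat_coe hf]
  have : flow (ChL2 m) 0 (hf.toLp f) = hf.toLp f := by simp [flow]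
  rw [this]
  exact hf.coeFn_toLp

theorem be_heat_congr {f g : X → ℝ} (h : f =ᵐ[m] g) (t : ℝ) : heatF m t f = heatF m t g := by
  by_cases hf : MemLp f 2 m
  · have hg : MemLp g 2 m := (memLp_congr_ae h).1 hf
    rw [be_heat_coe hf, be_heat_coe hg, (MemLp.toLp_eq_toLp_iff hf hg).2 h]
  · have hg : ¬ MemLp g 2 m := fun hg => hf ((memLp_congr_ae h).2 hg)
    simp [heatF, hf, hg]

theorem be_heat_sobolev (hS : Std m K N) {f : X → ℝ} (hf : Sobolev m f) {t : ℝ} (ht : 0 ≤ t) :
    Sobolev m (heatF m t f) := by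
  rcases ht.eq_or_lt with rfl | ht
  · exact be_need_sobolev_congr (be_heat_zero hf.1).symm hf
  · exact (be_need_heat_energy hS hf.1 ht).1

end Claimed.Agent.R210.BE.Heat
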