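/-
Row 210 (S0432), layer BE.  Normalised closed balls: elementary facts.
-/
import Claimed.Agent.R210.BE.Heat

set_option autoImplicit false

open Claims.C0366 Claims.C0366.WeakHessian
open Set Filter MeasureTheory
open scoped ENNReal NNReal Topology

namespace Claimed.Agent.R210.BE.Ball

open Claimed.Agent.R210.Defs Claimed.Agent.R210.Defs2 Claimed.Agent.R210.BE.Defs

variable {X : Type*} [MetricSpace X] [MeasurableSpace X] [BorelSpace X]
  [CompleteSpace X] [TopologicalSpace.SeparableSpace X] [ProperSpace X]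
variable {m : Measure X} {K N : ℝ}

/-! ### the measure -/

theorem be_locFinite (hS : Std m K N) : IsLocallyFiniteMeasure m :=
  ⟨fun x => ⟨Metric.ball x 1, Metric.ball_mem_nhds x one_pos, hS.finite _ Metric.isBounded_ball⟩⟩

theorem be_ball_pos (hS : Std m K N) (x : X) {ϱ : ℝ} (hϱ : 0 < ϱ) :
    0 < (m (Metric.closedBall x ϱ)).toReal := by
  refine ENNReal.toReal_pos ?_ (hS.finite _ Metric.isBounded_closedBall).ne
  have h1 : 0 < m (Metric.ball x ϱ) := hS.full _ Metric.isOpen_ball ⟨x, Metric.mem_ball_self hϱ⟩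
  exact (h1.trans_le (measure_mono Metric.ball_subset_closedBall)).ne'

/-- a property which holds a.e. holds on a dense set -/
theorem be_dense_of_ae (hS : Std m K N) {p : X → Prop} (h : ∀ᵐ x ∂m, p x) : Dense {x | p x} := by
  by_contra hd
  have hne : ((closure {x | p x})ᶜ).Nonempty := by
    by_contra hne
    rw [Set.not_nonempty_iff_eq_empty, Set.compl_empty_iff] at hne
    exact hd (dense_iff_closure_eq.2 hne)
  have h1 : 0 < m (closure {x | p x})ᶜ := hS.full _ isClosed_closure.isOpen_compl hne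
  have h2 : m (closure {x | p x})ᶜ ≤ m {x | ¬ p x} :=
    measure_mono (fun x hx hpx => hx (subset_closure hpx))
  have h3 : m {x | ¬ p x} = 0 := h
  rw [h3] at h2
  exact absurd h1 (not_lt.2 h2)

theorem be_locInt_of_memLp (hS : Std m K N) {u : X → ℝ} (hu : MemLp u 2 m) :
    LocallyIntegrable u m := by
  haveI := be_locFinite hS
  exact hu.locallyIntegrable one_le_two

theorem be_locInt_of_locL2 (hS : Std m K N) {u : X → ℝ} (hu : LocallyL2 m u) :
    LocallyIntegrable u m := by
  intro x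
  refine ⟨Metric.ball x 1, Metric.ball_mem_nhds x one_pos, ?_⟩
  haveI : IsFiniteMeasure (m.restrict (Metric.ball x 1)) :=
    ⟨by rw [Measure.restrict_apply_univ]; exact hS.finite _ Metric.isBounded_ball⟩
  exact (hu x 1 one_pos).integrable one_le_two

/-! ### the densities `be_nb` -/

theorem be_nb_measurable (x : X) (ϱ : ℝ) : Measurable (be_nb m x ϱ) :=
  measurable_const.indicator measurableSet_closedBall

theorem be_nb_nonneg (x : X) (ϱ : ℝ) (z : X) : 0 ≤ be_nb m x ϱ z :=
  Set.indicator_nonneg (fun _ _ => inv_nonneg.2 ENNReal.toReal_nonneg) z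

theorem be_nb_le (x : X) (ϱ : ℝ) (z : X) :
    be_nb m x ϱ z ≤ ((m (Metric.closedBall x ϱ)).toReal)⁻¹ :=
  Set.indicator_le_self' (fun _ _ => inv_nonneg.2 ENNReal.toReal_nonneg) z

theorem be_nb_memLp (hS : Std m K N) (x : X) (ϱ : ℝ) (p : ℝ≥0∞) : MemLp (be_nb m x ϱ) p m :=
  memLp_indicator_const p measurableSet_closedBall _
    (Or.inr (hS.finite _ Metric.isBounded_closedBall).ne)

theorem be_nb_integral (hS : Std m K N) (x : X) {ϱ : ℝ} (hϱ : 0 < ϱ) :
    ∫ z, be_nb m x ϱ z ∂m = 1 := by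
  unfold be_nb
  rw [integral_indicator_const _ measurableSet_closedBall, smul_eq_mul, Measure.real]
  exact mul_inv_cancel₀ (be_ball_pos hS x hϱ).ne'

theorem be_mul_nb (u : X → ℝ) (x : X) (ϱ : ℝ) :
    (fun z => u z * be_nb m x ϱ z) = (Metric.closedBall x ϱ).indicator
      (fun z => u z * ((m (Metric.closedBall x ϱ)).toReal)⁻¹) := by
  funext z
  by_cases hz : z ∈ Metric.closedBall x ϱ
  · simp [be_nb, hz]
  · simp [be_nb, hz]

/-- `u * be_nb` is integrable for locally integrable `u` -/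
theorem be_mul_nb_integrable {u : X → ℝ} (hu : LocallyIntegrable u m) (x : X) (ϱ : ℝ) :
    Integrable (fun z => u z * be_nb m x ϱ z) m := by
  rw [be_mul_nb, integrable_indicator_iff measurableSet_closedBall]
  exact (hu.integrableOn_isCompact (isCompact_closedBall x ϱ)).mul_const _

/-- `be_av` is the Mathlib average over the closed ball -/
theorem be_av_eq_average (u : X → ℝ) (x : X) (ϱ : ℝ) :
    be_av m u x ϱ = ⨍ z in Metric.closedBall x ϱ, u z ∂m := by
  unfold be_av
  rw [be_mul_nb, integral_indicator measurableSet_closedBall, integral_mul_const, setAverage_eq,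
    smul_eq_mul, mul_comm, Measure.real]

theorem be_av_congr {u v : X → ℝ} (h : u =ᵐ[m] v) (x : X) (ϱ : ℝ) :
    be_av m u x ϱ = be_av m v x ϱ := by
  unfold be_av
  refine integral_congr_ae ?_
  filter_upwards [h] with z hz
  rw [hz]

/-- a.e. bounds pass to averages -/
theorem be_av_le (hS : Std m K N) {u : X → ℝ} {B : ℝ} (hu : LocallyIntegrable u m)
    (hB : ∀ᵐ z ∂m, u z ≤ B) (x : X) {ϱ : ℝ} (hϱ : 0 < ϱ) : be_av m u x ϱ ≤ B := by
  have h1 : be_av m u x ϱ ≤ ∫ z, B * be_nb m x ϱ z ∂m := by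
    unfold be_av
    refine integral_mono_ae (be_mul_nb_integrable hu x ϱ)
      ((memLp_one_iff_integrable.1 (be_nb_memLp hS x ϱ 1)).const_mul B) ?_
    filter_upwards [hB] with z hz
    exact mul_le_mul_of_nonneg_right hz (be_nb_nonneg x ϱ z)
  rwa [integral_const_mul, be_nb_integral hS x hϱ, mul_one] at h1

theorem be_av_nonneg {u : X → ℝ} (h0 : ∀ᵐ z ∂m, 0 ≤ u z) (x : X) (ϱ : ℝ) :
    0 ≤ be_av m u x ϱ := by
  unfold be_av
  refine integral_nonneg_of_ae ?_
  filter_upwards [h0] with z hz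
  exact mul_nonneg hz (be_nb_nonneg x ϱ z)

theorem be_av_sub_center (hS : Std m K N) {g : X → ℝ} {L : ℝ≥0} (hg : LipschitzWith L g) (x : X)
    {ϱ : ℝ} (hϱ : 0 < ϱ) : |be_av m g x ϱ - g x| ≤ L * ϱ := by
  have := be_locFinite hS
  have hgi : LocallyIntegrable g m := hg.continuous.locallyIntegrable
  have hnb : Integrable (be_nb m x ϱ) m := memLp_one_iff_integrable.1 (be_nb_memLp hS x ϱ 1)
  have h1 : be_av m g x ϱ - g x = ∫ z, (g z - g x) * be_nb m x ϱ z ∂m := by
    have : g x = ∫ z, g x * be_nb m x ϱ z ∂m := by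
      rw [integral_const_mul, be_nb_integral hS x hϱ, mul_one]
    unfold be_av
    rw [this, ← integral_sub (be_mul_nb_integrable hgi x ϱ) (hnb.const_mul _)]
    refine integral_congr_ae (Eventually.of_forall fun z => ?_)
    simp only
    rw [← this]; ring
  rw [h1]
  have h2 : ‖∫ z, (g z - g x) * be_nb m x ϱ z ∂m‖ ≤ ∫ z, (L * ϱ) * be_nb m x ϱ z ∂m := by
    refine norm_integral_le_of_norm_le (hnb.const_mul _) (Eventually.of_forall fun z => ?_)
    rw [norm_mul, Real.norm_of_nonneg (be_nb_nonneg x ϱ z)]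
    by_cases hz : z ∈ Metric.closedBall x ϱ
    · refine mul_le_mul_of_nonneg_right ?_ (be_nb_nonneg x ϱ z)
      have := hg.dist_le_mul z x
      rw [Real.dist_eq] at this
      rw [Real.norm_eq_abs]
      exact this.trans (mul_le_mul_of_nonneg_left (Metric.mem_closedBall.1 hz) L.2)
    · simp [be_nb, hz]
  rwa [integral_const_mul, be_nb_integral hS x hϱ, mul_one, Real.norm_eq_abs] at h2

/-- averages of a Lipschitz function -/
theorem be_av_lip (hS : Std m K N) {g : X → ℝ} {L : ℝ≥0} (hg : LipschitzWith L g) (x y : X)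
    {ϱ : ℝ} (hϱ : 0 < ϱ) : |be_av m g x ϱ - be_av m g y ϱ| ≤ L * (dist x y + 2 * ϱ) := by
  have h1 := be_av_sub_center hS hg x hϱ
  have h2 := be_av_sub_center hS hg y hϱ
  have h3 := hg.dist_le_mul x y
  rw [Real.dist_eq] at h3
  rw [abs_le] at *
  constructor <;> nlinarith [h1.1, h1.2, h2.1, h2.2, h3.1, h3.2]

/-! ### the measures `dens m ρ` -/

/-- integration against `dens m ρ` -/
theorem be_integral_dens {ρ : X → ℝ} (hρ : AEMeasurable ρ m) (h0 : ∀ᵐ z ∂m, 0 ≤ ρ z)
    (f : X → ℝ) : ∫ z, f z ∂(dens m ρ) = ∫ z, f z * ρ z ∂m := by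
  unfold dens
  rw [integral_withDensity_eq_integral_toReal_smul₀ hρ.ennreal_ofReal
    (Eventually.of_forall fun _ => ENNReal.ofReal_lt_top)]
  refine integral_congr_ae ?_
  filter_upwards [h0] with z hz
  rw [ENNReal.toReal_ofReal hz, smul_eq_mul, mul_comm]

theorem be_integrable_dens {ρ : X → ℝ} (hρ : AEMeasurable ρ m) (h0 : ∀ᵐ z ∂m, 0 ≤ ρ z)
    {f : X → ℝ} (_hf : Measurable f) (hint : Integrable (fun z => f z * ρ z) m) :
    Integrable f (dens m ρ) := by
  unfold dens
  rw [integrable_withDensity_iff_integrable_smul₀' hρ.ennreal_ofReal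
    (Eventually.of_forall fun _ => ENNReal.ofReal_lt_top)]
  refine hint.congr ?_
  filter_upwards [h0] with z hz
  rw [ENNReal.toReal_ofReal hz, smul_eq_mul, mul_comm]

theorem be_nb_conc (x : X) (ϱ : ℝ) : dens m (be_nb m x ϱ) (Metric.closedBall x ϱ)ᶜ = 0 := by
  unfold dens
  rw [withDensity_apply _ measurableSet_closedBall.compl]
  rw [setLIntegral_congr_fun measurableSet_closedBall.compl (g := fun _ => 0)]
  · simp
  · intro z hz
    have : z ∉ Metric.closedBall x ϱ := hz
    simp [be_nb, this]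

theorem be_nb_prob (hS : Std m K N) (x : X) {ϱ : ℝ} (hϱ : 0 < ϱ) :
    IsProbabilityMeasure (dens m (be_nb m x ϱ)) := by
  constructor
  unfold dens
  rw [withDensity_apply _ MeasurableSet.univ, Measure.restrict_univ,
    ← ofReal_integral_eq_lintegral_ofReal (memLp_one_iff_integrable.1 (be_nb_memLp hS x ϱ 1))
      (Eventually.of_forall (be_nb_nonneg x ϱ)), be_nb_integral hS x hϱ, ENNReal.ofReal_one]

theorem be_nb_bddDens (hS : Std m K N) (x : X) {ϱ : ℝ} (hϱ : 0 < ϱ) {o : X} {R : ℝ}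
    (hR : dist x o + ϱ ≤ R) :
    BddDens m (dens m (be_nb m x ϱ)) (Real.toNNReal ((m (Metric.closedBall x ϱ)).toReal)⁻¹) o R := by
  refine ⟨be_nb_prob hS x hϱ, ?_, ?_⟩
  · refine Measure.le_iff.2 fun s hs => ?_
    unfold dens
    rw [withDensity_apply _ hs, Measure.smul_apply, smul_eq_mul]
    calc ∫⁻ a in s, ENNReal.ofReal (be_nb m x ϱ a) ∂m
        ≤ ∫⁻ _ in s, (Real.toNNReal ((m (Metric.closedBall x ϱ)).toReal)⁻¹ : ℝ≥0∞) ∂m := by
          refine lintegral_mono fun a => ?_
          exact ENNReal.ofReal_le_ofReal (be_nb_le x ϱ a)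
      _ = _ := by rw [setLIntegral_const]
  · refine measure_mono_null ?_ (be_nb_conc x ϱ)
    refine Set.compl_subset_compl.2 fun z hz => ?_
    rw [Metric.mem_closedBall] at hz ⊢
    linarith [dist_triangle z x o]

/-- product coupling -/
theorem be_nb_W2sq (hS : Std m K N) (x y : X) {ϱ : ℝ} (hϱ : 0 < ϱ) :
    W2sq (dens m (be_nb m x ϱ)) (dens m (be_nb m y ϱ)) ≤
      ENNReal.ofReal ((dist x y + 2 * ϱ) ^ 2) := by
  have := be_nb_prob hS x hϱ
  have := be_nb_prob hS y hϱ
  set μ := dens m (be_nb m x ϱ) with hμ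
  set ν := dens m (be_nb m y ϱ) with hν
  have hc : IsCoupling (μ.prod ν) μ ν := by
    constructor
    · rw [Measure.map_fst_prod]; simp
    · rw [Measure.map_snd_prod]; simp
  refine (iInf₂_le (μ.prod ν) hc).trans ?_
  unfold QuadraticTransportCost
  have h1 : ∀ᵐ p ∂(μ.prod ν), p.1 ∈ Metric.closedBall x ϱ := by
    have : ∀ᵐ a ∂μ, a ∈ Metric.closedBall x ϱ := by
      rw [ae_iff]; exact be_nb_conc x ϱ
    exact Measure.quasiMeasurePreserving_fst.ae this
  have h2 : ∀ᵐ p ∂(μ.prod ν), p.2 ∈ Metric.closedBall y ϱ := by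
    have : ∀ᵐ a ∂ν, a ∈ Metric.closedBall y ϱ := by
      rw [ae_iff]; exact be_nb_conc y ϱ
    exact Measure.quasiMeasurePreserving_snd.ae this
  calc ∫⁻ p, edist p.1 p.2 ^ 2 ∂(μ.prod ν)
      ≤ ∫⁻ _, ENNReal.ofReal ((dist x y + 2 * ϱ) ^ 2) ∂(μ.prod ν) := by
        refine lintegral_mono_ae ?_
        filter_upwards [h1, h2] with p hp1 hp2
        rw [edist_dist, ← ENNReal.ofReal_pow dist_nonneg]
        refine ENNReal.ofReal_le_ofReal (pow_le_pow_left₀ dist_nonneg ?_ 2)
        rw [Metric.mem_closedBall] at hp1 hp2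
        have := dist_triangle4 p.1 x y p.2
        rw [dist_comm y p.2] at this
        linarith
    _ = _ := by simp

end Claimed.Agent.R210.BE.Ball
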