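/-
Row 210 (S0432), layer BE.  BE0: Lebesgue points; Lipschitz and slope criteria in terms of averages.
-/
import Claimed.Agent.R210.BE.Ball

set_option autoImplicit false

open Claims.C0366 Claims.C0366.WeakHessian
open Set Filter MeasureTheory
open scoped ENNReal NNReal Topology

namespace Claimed.Agent.R210.BE.Leb

open Claimed.Agent.R210.BE.Heat Claimed.Agent.R210.Defs Claimed.Agent.R210.Defs2 Claimed.Agent.R210.BE.Defs
  Claimed.Agent.R210.BE.Need Claimed.Agent.R210.BE.Ball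

variable {X : Type*} [MetricSpace X] [MeasurableSpace X] [BorelSpace X]
  [CompleteSpace X] [TopologicalSpace.SeparableSpace X] [ProperSpace X]
variable {m : Measure X} {K N : ℝ}

/-- **BE0** Lebesgue differentiation along the radii `1/(n+1)`. -/
theorem be_lebesgue (hS : Std m K N) {u : X → ℝ} (hu : LocallyIntegrable u m) :
    ∀ᵐ x ∂m, Tendsto (fun n : ℕ => be_av m u x (1 / ((n : ℝ) + 1))) atTop (𝓝 (u x)) := by
  haveI := be_need_doubling hS
  haveI := be_locFinite hS
  haveI : SecondCountableTopology X := UniformSpace.secondCountable_of_separable X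
  have hδ : Tendsto (fun n : ℕ => 1 / ((n : ℝ) + 1)) atTop (𝓝[>] 0) := by
    rw [tendsto_nhdsWithin_iff]
    refine ⟨tendsto_one_div_add_atTop_nhds_zero_nat, Eventually.of_forall fun n => ?_⟩
    exact Set.mem_Ioi.2 (by positivity)
  filter_upwards [IsUnifLocDoublingMeasure.ae_tendsto_average (μ := m) hu 1] with x hx
  have h1 := hx (fun _ : ℕ => x) (fun n : ℕ => 1 / ((n : ℝ) + 1)) hδ
    (Eventually.of_forall fun n => Metric.mem_closedBall_self (by positivity))
  simpa only [be_av_eq_average] using h1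

/-- Lipschitz criterion. -/
theorem be_lip_of_avg (hS : Std m K N) {u : X → ℝ} {L : ℝ} (hL : 0 ≤ L)
    (hu : LocallyIntegrable u m)
    (h : ∀ x y ϱ, 0 < ϱ → |be_av m u x ϱ - be_av m u y ϱ| ≤ L * (dist x y + 2 * ϱ)) :
    ∃ g : X → ℝ, LipschitzWith (Real.toNNReal L) g ∧ g =ᵐ[m] u := by
  have hA := be_lebesgue hS hu
  set A : Set X := {x | Tendsto (fun n : ℕ => be_av m u x (1 / ((n : ℝ) + 1))) atTop (𝓝 (u x))} with hAdef
  have hlip : LipschitzOnWith (Real.toNNReal L) u A := by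
    refine LipschitzOnWith.of_dist_le_mul fun x hx y hy => ?_
    rw [Real.coe_toNNReal L hL, Real.dist_eq]
    have h1 : Tendsto (fun n : ℕ => |be_av m u x (1 / ((n : ℝ) + 1)) - be_av m u y (1 / ((n : ℝ) + 1))|)
        atTop (𝓝 |u x - u y|) := (Tendsto.sub hx hy).abs
    have h2 : Tendsto (fun n : ℕ => L * (dist x y + 2 * (1 / ((n : ℝ) + 1)))) atTop
        (𝓝 (L * (dist x y + 2 * 0))) :=
      (tendsto_const_nhds.add (tendsto_one_div_add_atTop_nhds_zero_nat.const_mul 2)).const_mul L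
    have h3 := le_of_tendsto_of_tendsto' h1 h2 (fun n => h x y _ (by positivity))
    simpa using h3
  obtain ⟨g, hg, hgA⟩ := hlip.extend_real
  refine ⟨g, hg, ?_⟩
  filter_upwards [hA] with x hx
  exact (hgA hx).symm

omit [MeasurableSpace X] [BorelSpace X] [CompleteSpace X] [TopologicalSpace.SeparableSpace X]
  [ProperSpace X] in
/-- pure metric part of the slope criterion -/
theorem be_slope_le_of_quad {g : X → ℝ} {x : X} {A c : ℝ} (hc : 0 ≤ c)
    (h : ∀ y, |g x - g y| ≤ A * dist x y + c * dist x y ^ 2) :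
    localSlope g x ≤ ENNReal.ofReal A := by
  refine ENNReal.le_of_forall_pos_le_add (fun ε hε _ => ?_)
  have hε' : (0 : ℝ) < ε := hε
  have h1 : ∀ᶠ y in 𝓝[≠] x, ENNReal.ofReal (|g y - g x| / dist y x) ≤ ENNReal.ofReal (A + ε) := by
    have hb : ∀ᶠ y in 𝓝[≠] x, dist y x < ε / (c + 1) :=
      nhdsWithin_le_nhds (Metric.ball_mem_nhds x (by positivity))
    filter_upwards [hb, self_mem_nhdsWithin] with y hy hyx
    have hd : 0 < dist y x := dist_pos.2 hyx
    apply ENNReal.ofReal_le_ofReal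
    rw [div_le_iff₀ hd]
    have h2 := h y
    rw [abs_sub_comm, dist_comm x y] at h2
    have h3 : c * dist y x ≤ ε := by
      have h4 : dist y x * (c + 1) < ε := (lt_div_iff₀ (by positivity)).1 hy
      nlinarith
    nlinarith
  have h2 : localSlope g x ≤ ENNReal.ofReal (A + ε) := Filter.limsup_le_of_le (h := h1)
  refine h2.trans (ENNReal.ofReal_add_le.trans ?_)
  rw [ENNReal.ofReal_coe_nnreal]

/-- Slope criterion. -/
theorem be_slope_of_avg (hS : Std m K N) {u v g : X → ℝ} {a c : ℝ} (ha : 0 ≤ a) (hc : 0 ≤ c)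
    (hu : LocallyIntegrable u m) (hv : LocallyIntegrable v m) (hg : Continuous g)
    (hgu : g =ᵐ[m] u)
    (h : ∀ x y ϱ, 0 < ϱ → |be_av m u x ϱ - be_av m u y ϱ| ≤
      a * (dist x y + 2 * ϱ) * Real.sqrt (be_av m v x ϱ) + c * (dist x y + 2 * ϱ) ^ 2) :
    ∀ᵐ x ∂m, localSlope g x ≤ ENNReal.ofReal (a * Real.sqrt (v x)) := by
  have hp : ∀ᵐ x ∂m,
      (Tendsto (fun n : ℕ => be_av m u x (1 / ((n : ℝ) + 1))) atTop (𝓝 (u x)) ∧
        Tendsto (fun n : ℕ => be_av m v x (1 / ((n : ℝ) + 1))) atTop (𝓝 (v x))) ∧ g x = u x := by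
    filter_upwards [be_lebesgue hS hu, be_lebesgue hS hv, hgu] with x h1 h2 h3
    exact ⟨⟨h1, h2⟩, h3⟩
  have hdense := be_dense_of_ae hS hp
  have hr : Tendsto (fun n : ℕ => 1 / ((n : ℝ) + 1)) atTop (𝓝 0) :=
    tendsto_one_div_add_atTop_nhds_zero_nat
  filter_upwards [hp] with x hx
  apply be_slope_le_of_quad hc
  -- the inequality on the dense set
  have hA : ∀ y ∈ {y | (Tendsto (fun n : ℕ => be_av m u y (1 / ((n : ℝ) + 1))) atTop (𝓝 (u y)) ∧
        Tendsto (fun n : ℕ => be_av m v y (1 / ((n : ℝ) + 1))) atTop (𝓝 (v y))) ∧ g y = u y},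
      |g x - g y| ≤ a * Real.sqrt (v x) * dist x y + c * dist x y ^ 2 := by
    intro y hy
    rw [hx.2, hy.2]
    have hl : Tendsto (fun n : ℕ => |be_av m u x (1 / ((n : ℝ) + 1)) - be_av m u y (1 / ((n : ℝ) + 1))|)
        atTop (𝓝 |u x - u y|) := (hx.1.1.sub hy.1.1).abs
    have hd : Tendsto (fun n : ℕ => dist x y + 2 * (1 / ((n : ℝ) + 1))) atTop (𝓝 (dist x y)) := by
      simpa using (tendsto_const_nhds (x := dist x y)).add (hr.const_mul 2)
    have hrr : Tendsto (fun n : ℕ => a * (dist x y + 2 * (1 / ((n : ℝ) + 1))) *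
          Real.sqrt (be_av m v x (1 / ((n : ℝ) + 1))) + c * (dist x y + 2 * (1 / ((n : ℝ) + 1))) ^ 2)
        atTop (𝓝 (a * dist x y * Real.sqrt (v x) + c * dist x y ^ 2)) :=
      ((hd.const_mul a).mul ((Real.continuous_sqrt.tendsto _).comp hx.1.2)).add
        ((hd.pow 2).const_mul c)
    have := le_of_tendsto_of_tendsto' hl hrr (fun n => h x y _ (by positivity))
    linarith
  have hcl : IsClosed {y | |g x - g y| ≤ a * Real.sqrt (v x) * dist x y + c * dist x y ^ 2} :=
    isClosed_le (by fun_prop) (by fun_prop)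
  intro y
  have : y ∈ closure {y | (Tendsto (fun n : ℕ => be_av m u y (1 / ((n : ℝ) + 1))) atTop (𝓝 (u y)) ∧
        Tendsto (fun n : ℕ => be_av m v y (1 / ((n : ℝ) + 1))) atTop (𝓝 (v y))) ∧ g y = u y} :=
    hdense y
  exact (hcl.closure_subset_iff.2 hA) this

/-- From integrals over sets of finite measure to an a.e. inequality. -/
theorem be_ae_le_of_setIntegral (hS : Std m K N) {a b : X → ℝ}
    (ha : ∀ s, MeasurableSet s → m s < ∞ → IntegrableOn a s m)
    (hb : ∀ s, MeasurableSet s → m s < ∞ → IntegrableOn b s m)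
    (h : ∀ s, MeasurableSet s → m s < ∞ → ∫ x in s, a x ∂m ≤ ∫ x in s, b x ∂m) :
    ∀ᵐ x ∂m, a x ≤ b x := by
  haveI := be_locFinite hS
  haveI : SecondCountableTopology X := UniformSpace.secondCountable_of_separable X
  have h1 : 0 ≤ᵐ[m] fun x => b x - a x := by
    refine ae_nonneg_of_forall_setIntegral_nonneg_of_sigmaFinite
      (fun s hs hms => (hb s hs hms).sub (ha s hs hms)) (fun s hs hms => ?_)
    rw [integral_sub (hb s hs hms) (ha s hs hms)]
    exact sub_nonneg.2 (h s hs hms)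
  filter_upwards [h1] with x hx
  exact sub_nonneg.1 hx

end Claimed.Agent.R210.BE.Leb
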