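/-
Row 210 (S0432), layer BE.  BE3: the Sobolev-to-Lipschitz property.
-/
import Claimed.Agent.R210.BE.Leb
import Claimed.Agent.R210.GM.Ifc

set_option autoImplicit false

open Claims.C0366 Claims.C0366.WeakHessian
open Set Filter MeasureTheory
open scoped ENNReal NNReal Topology

namespace Claimed.Agent.R210.BE.Three

open Claimed.Agent.R210.BE.Heat Claimed.Agent.R210.Defs Claimed.Agent.R210.Defs2 Claimed.Agent.R210.BE.Defs
  Claimed.Agent.R210.BE.Need Claimed.Agent.R210.BE.Ball Claimed.Agent.R210.BE.Leb

variable {X : Type*} [MetricSpace X] [MeasurableSpace X] [BorelSpace X]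
  [CompleteSpace X] [TopologicalSpace.SeparableSpace X] [ProperSpace X]
variable {m : Measure X} {K N : ℝ}

theorem be_continuous_clampTime : Continuous clampTime := by
  unfold clampTime
  exact Continuous.subtype_mk (by fun_prop) _

theorem be_measurable_evalReal : Measurable (fun p : Curve X × ℝ => evalReal p.1 p.2) := by
  have h : Continuous (fun p : Curve X × ℝ => evalReal p.1 p.2) :=
    (ContinuousEval.continuous_eval (F := Curve X)).comp
      (continuous_fst.prodMk (be_continuous_clampTime.comp continuous_snd))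
  exact h.measurable

theorem be_pb_measurable_eval (t : Time) : Measurable (fun γ : Curve X => γ t) :=
  (ContinuousEval.continuous_eval (F := Curve X) |>.comp
    (continuous_id.prodMk continuous_const)).measurable

/-- a property that holds `m`-a.e. holds along a.e. curve of a plan with bounded compression,
at a.e. time -/
theorem be_ae_along {π : Measure (Curve X)} [SFinite π] {C : ℝ≥0}
    (hcomp : ∀ t : Time, Measure.map (fun γ : Curve X => γ t) π ≤ (C : ℝ≥0∞) • m)
    {p : X → Prop} (hp : ∀ᵐ x ∂m, p x) :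
    ∀ᵐ γ ∂π, ∀ᵐ t ∂(volume.restrict (Icc (0 : ℝ) 1)), p (evalReal γ t) := by
  set N' : Set X := toMeasurable m {x | ¬ p x} with hN'
  have hN0 : m N' = 0 := by
    rw [hN', measure_toMeasurable]
    exact ae_iff.1 hp
  have hNm : MeasurableSet N' := measurableSet_toMeasurable _ _
  set S : Set (Curve X × ℝ) := (fun q : Curve X × ℝ => evalReal q.1 q.2) ⁻¹' N' with hS
  have hSm : MeasurableSet S := be_measurable_evalReal hNm
  have hS0 : (π.prod (volume.restrict (Icc (0 : ℝ) 1))) S = 0 := by
    rw [Measure.prod_apply_symm hSm]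
    apply lintegral_eq_zero_of_ae_eq_zero
    refine Eventually.of_forall fun t => ?_
    show π ((fun γ => (γ, t)) ⁻¹' S) = 0
    have e : (fun γ : Curve X => (γ, t)) ⁻¹' S = (fun γ : Curve X => γ (clampTime t)) ⁻¹' N' := rfl
    rw [e, ← Measure.map_apply (be_pb_measurable_eval _) hNm]
    have := hcomp (clampTime t) N'
    rw [Measure.smul_apply, hN0, smul_zero] at this
    exact le_antisymm this zero_le
  have h1 := (Measure.measure_prod_null hSm).1 hS0
  filter_upwards [h1] with γ hγ
  rw [ae_iff]
  refine measure_mono_null (fun t ht => ?_) hγ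
  show evalReal γ t ∈ N'
  exact subset_toMeasurable _ _ ht

/-- The upper gradient inequality along a geodesic plan, for a bounded weak gradient. -/
theorem be_plan_bound {μ ν : Measure X} {π : Measure (Curve X)} {C : ℝ≥0}
    (hπ : GeoPlan m μ ν π C) {f : X → ℝ} {L D : ℝ} (hL : 0 ≤ L) (hf : LocalSobolev m f)
    (hfL : ∀ᵐ x ∂m, weakGradient m f x ≤ L)
    (hD : ∀ᵐ γ ∂π, dist (γ timeZero) (γ timeOne) ≤ D) :
    ∫⁻ γ, ENNReal.ofReal |f (γ timeOne) - f (γ timeZero)| ∂π ≤ ENNReal.ofReal (L * D) := by
  have hprob : IsProbabilityMeasure π := hπ.prob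
  have hW : IsLocalWeakUpperGradient m f (weakGradient m f) := by
    unfold weakGradient
    rw [dif_pos hf.2]
    exact (Classical.choose_spec hf.2).1
  refine (hW.2.2 π (be_need_geoPlan_test hπ) hπ.tracks).trans ?_
  have hal := be_ae_along hπ.comp hfL
  calc ∫⁻ γ, ∫⁻ t in Icc (0 : ℝ) 1,
        ENNReal.ofReal (weakGradient m f (evalReal γ t)) * metricSpeed γ t ∂volume ∂π
      ≤ ∫⁻ _γ : Curve X, ENNReal.ofReal (L * D) ∂π := by
        apply lintegral_mono_ae
        filter_upwards [hal, hπ.geo, hD] with γ h1 h2 h3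
        calc ∫⁻ t in Icc (0 : ℝ) 1,
              ENNReal.ofReal (weakGradient m f (evalReal γ t)) * metricSpeed γ t ∂volume
            ≤ ∫⁻ _t in Icc (0 : ℝ) 1, ENNReal.ofReal (L * D) ∂volume := by
              apply lintegral_mono_ae
              have hIoo : ∀ᵐ t ∂(volume.restrict (Icc (0 : ℝ) 1)), t ∈ Ioo (0 : ℝ) 1 := by
                rw [← restrict_Ioo_eq_restrict_Icc]
                exact ae_restrict_mem measurableSet_Ioo
              filter_upwards [h1, hIoo] with t ht1 ht2
              rw [be_need_geodesic_speed h2 ht2, ENNReal.ofReal_mul hL]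
              exact mul_le_mul' (ENNReal.ofReal_le_ofReal ht1) (ENNReal.ofReal_le_ofReal h3)
          _ = ENNReal.ofReal (L * D) := by
              rw [setLIntegral_const, Real.volume_Icc]
              simp
    _ = ENNReal.ofReal (L * D) := by
        rw [lintegral_const, measure_univ, mul_one]

/-- a locally integrable function is integrable w.r.t. the normalised restriction to a ball. -/
theorem be_integrable_nb {f : X → ℝ} (hloc : LocallyIntegrable f m) (x : X) (ϱ : ℝ) :
    Integrable f (dens m (be_nb m x ϱ)) := by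
  unfold dens
  rw [integrable_withDensity_iff_integrable_smul₀'
    (be_nb_measurable x ϱ).ennreal_ofReal.aemeasurable (Eventually.of_forall fun _ => ENNReal.ofReal_lt_top)]
  have hB : IntegrableOn f (Metric.closedBall x ϱ) m :=
    hloc.integrableOn_isCompact (isCompact_closedBall x ϱ)
  have h1 : Integrable ((Metric.closedBall x ϱ).indicator
      (fun z => ((m (Metric.closedBall x ϱ)).toReal)⁻¹ * f z)) m :=
    (integrable_indicator_iff Metric.isClosed_closedBall.measurableSet).2 (hB.const_mul _)
  refine h1.congr (Eventually.of_forall fun z => ?_)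
  simp only [ENNReal.toReal_ofReal (be_nb_nonneg x ϱ z), smul_eq_mul]
  unfold be_nb
  by_cases hz : z ∈ Metric.closedBall x ϱ
  · rw [indicator_of_mem hz, indicator_of_mem hz]
  · rw [indicator_of_notMem hz, indicator_of_notMem hz, zero_mul]

theorem be_measurable_eval (t : Time) : Measurable (fun γ : Curve X => γ t) :=
  (continuous_eval_const t).measurable

/-- the marginals of a geodesic plan. -/
theorem be_plan_marginals {μ ν : Measure X} {π : Measure (Curve X)} {C : ℝ≥0} (hπ : GeoPlan m μ ν π C) :
    Measure.map (fun γ : Curve X => γ timeZero) π = μ ∧ Measure.map (fun γ : Curve X => γ timeOne) π = ν := by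
  have e0 := be_measurable_eval (X := X) timeZero
  have e1 := be_measurable_eval (X := X) timeOne
  have h := hπ.opt.1
  unfold IsCoupling endpointCoupling at h
  rw [Measure.map_map measurable_fst (e0.prodMk e1), Measure.map_map measurable_snd (e0.prodMk e1)] at h
  exact h

/-- Averages of a function with bounded weak gradient. -/
theorem be_avg_sobolev (hS : Std m K N) {f : X → ℝ} {L : ℝ} (hL : 0 ≤ L)
    (hf : LocalSobolev m f) (hfL : ∀ᵐ x ∂m, weakGradient m f x ≤ L) (x y : X) {ϱ : ℝ}
    (hϱ : 0 < ϱ) : |be_av m f x ϱ - be_av m f y ϱ| ≤ L * (dist x y + 2 * ϱ) := by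
  haveI : SecondCountableTopology X := UniformSpace.secondCountable_of_separable X
  have hloc : LocallyIntegrable f m := be_locInt_of_locL2 hS hf.1
  have h0 := be_nb_bddDens hS x hϱ (o := x) (R := dist x y + ϱ)
    (by rw [dist_self]; linarith [dist_nonneg (x := x) (y := y)])
  have h1 := be_nb_bddDens hS y hϱ (o := x) (R := dist x y + ϱ) (by rw [dist_comm])
  have hR0 : 0 ≤ 2 * (dist x y + ϱ) := by positivity
  obtain ⟨π, hπ, -⟩ := GM.Ifc.gm_GM4 hS h0 h1 (GM.Ifc.gm_HD_two_mul h0 h1) hR0
  haveI := hπ.prob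
  have e0 := be_measurable_eval (X := X) timeZero
  have e1 := be_measurable_eval (X := X) timeOne
  obtain ⟨hm0, hm1⟩ := be_plan_marginals hπ
  have i0 : Integrable f (dens m (be_nb m x ϱ)) := be_integrable_nb hloc x ϱ
  have i1 : Integrable f (dens m (be_nb m y ϱ)) := be_integrable_nb hloc y ϱ
  have j0 : Integrable (fun γ : Curve X => f (γ timeZero)) π := by
    have h2 : Integrable f (Measure.map (fun γ : Curve X => γ timeZero) π) := by rw [hm0]; exact i0
    exact (integrable_map_measure h2.aestronglyMeasurable e0.aemeasurable).1 h2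
  have j1 : Integrable (fun γ : Curve X => f (γ timeOne)) π := by
    have h2 : Integrable f (Measure.map (fun γ : Curve X => γ timeOne) π) := by rw [hm1]; exact i1
    exact (integrable_map_measure h2.aestronglyMeasurable e1.aemeasurable).1 h2
  have a0 : be_av m f x ϱ = ∫ γ, f (γ timeZero) ∂π := by
    unfold be_av
    rw [← be_integral_dens (be_nb_measurable x ϱ).aemeasurable
      (Eventually.of_forall (be_nb_nonneg x ϱ)) f, ← hm0,
      integral_map e0.aemeasurable (by rw [hm0]; exact i0.aestronglyMeasurable)]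
  have a1 : be_av m f y ϱ = ∫ γ, f (γ timeOne) ∂π := by
    unfold be_av
    rw [← be_integral_dens (be_nb_measurable y ϱ).aemeasurable
      (Eventually.of_forall (be_nb_nonneg y ϱ)) f, ← hm1,
      integral_map e1.aemeasurable (by rw [hm1]; exact i1.aestronglyMeasurable)]
  have c0 : ∀ᵐ γ ∂π, γ timeZero ∈ Metric.closedBall x ϱ := by
    have h2 : ∀ᵐ z ∂(Measure.map (fun γ : Curve X => γ timeZero) π), z ∈ Metric.closedBall x ϱ := by
      rw [hm0, ae_iff]
      exact be_nb_conc x ϱ
    exact ae_of_ae_map e0.aemeasurable h2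
  have c1 : ∀ᵐ γ ∂π, γ timeOne ∈ Metric.closedBall y ϱ := by
    have h2 : ∀ᵐ z ∂(Measure.map (fun γ : Curve X => γ timeOne) π), z ∈ Metric.closedBall y ϱ := by
      rw [hm1, ae_iff]
      exact be_nb_conc y ϱ
    exact ae_of_ae_map e1.aemeasurable h2
  have hD : ∀ᵐ γ ∂π, dist (γ timeZero) (γ timeOne) ≤ dist x y + 2 * ϱ := by
    filter_upwards [c0, c1] with γ g0 g1
    have t1 := dist_triangle4 (γ timeZero) x y (γ timeOne)
    have t2 : dist (γ timeZero) x ≤ ϱ := Metric.mem_closedBall.1 g0
    have t3 : dist y (γ timeOne) ≤ ϱ := by rw [dist_comm]; exact Metric.mem_closedBall.1 g1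
    linarith
  have hb := be_plan_bound hπ hL hf hfL hD
  have hLD : 0 ≤ L * (dist x y + 2 * ϱ) := by positivity
  have jd : Integrable (fun γ : Curve X => f (γ timeOne) - f (γ timeZero)) π := j1.sub j0
  rw [a0, a1, abs_sub_comm, ← integral_sub j1 j0]
  calc |∫ γ, (f (γ timeOne) - f (γ timeZero)) ∂π|
      ≤ ∫ γ, |f (γ timeOne) - f (γ timeZero)| ∂π := abs_integral_le_integral_abs
    _ = (∫⁻ γ, ENNReal.ofReal |f (γ timeOne) - f (γ timeZero)| ∂π).toReal :=
        integral_eq_lintegral_of_nonneg_ae (Eventually.of_forall fun _ => abs_nonneg _)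
          jd.aestronglyMeasurable.norm
    _ ≤ (ENNReal.ofReal (L * (dist x y + 2 * ϱ))).toReal := ENNReal.toReal_mono ENNReal.ofReal_ne_top hb
    _ = L * (dist x y + 2 * ϱ) := ENNReal.toReal_ofReal hLD

/-- **BE3**, real constant. -/
theorem be_three (hS : Std m K N) {f : X → ℝ} {L : ℝ} (hL : 0 ≤ L) (hf : LocalSobolev m f)
    (hfL : ∀ᵐ x ∂m, weakGradient m f x ≤ L) :
    ∃ g : X → ℝ, LipschitzWith (Real.toNNReal L) g ∧ g =ᵐ[m] f :=
  be_lip_of_avg hS hL (be_locInt_of_locL2 hS hf.1)
    (fun x y _ hϱ => be_avg_sobolev hS hL hf hfL x y hϱ)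

end Claimed.Agent.R210.BE.Three
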