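/-
Row 210 (S0432), layer BE.  Pure measure theory: the trilinear functional `∫ U² V` along curves in `L²`
which are uniformly bounded in `L^∞`.
-/
import Mathlib

set_option autoImplicit false

open Set Filter MeasureTheory
open scoped ENNReal NNReal Topology

namespace Claimed.Agent.R210.BE.Tri

variable {α : Type*} [MeasurableSpace α] {μ : Measure α}

/-- the product of two elements of `L²` as an element of `L²` (junk value `0` if the product is not in `L²`) -/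
noncomputable def be_prod (u v : Lp ℝ 2 μ) : Lp ℝ 2 μ :=
  haveI := Classical.propDecidable (MemLp (fun x => u x * v x) 2 μ)
  if h : MemLp (fun x => u x * v x) 2 μ then h.toLp _ else 0

theorem be_prod_memLp {u : Lp ℝ 2 μ} (v : Lp ℝ 2 μ) {B : ℝ} (hu : ∀ᵐ x ∂μ, |u x| ≤ B) :
    MemLp (fun x => u x * v x) 2 μ := by
  refine MemLp.of_le_mul (Lp.memLp v) ((Lp.aestronglyMeasurable u).mul (Lp.aestronglyMeasurable v)) (c := B) ?_
  filter_upwards [hu] with x hx
  rw [norm_mul]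
  exact mul_le_mul_of_nonneg_right hx (norm_nonneg _)

theorem be_prod_coe {u : Lp ℝ 2 μ} (v : Lp ℝ 2 μ) {B : ℝ} (hu : ∀ᵐ x ∂μ, |u x| ≤ B) :
    be_prod u v =ᵐ[μ] fun x => u x * v x := by
  rw [be_prod, dif_pos (be_prod_memLp v hu)]
  exact MemLp.coeFn_toLp _

theorem be_prod_norm_le {u : Lp ℝ 2 μ} (v : Lp ℝ 2 μ) {B : ℝ} (hu : ∀ᵐ x ∂μ, |u x| ≤ B) :
    ‖be_prod u v‖ ≤ B * ‖v‖ := by
  apply Lp.norm_le_mul_norm_of_ae_le_mul
  filter_upwards [hu, be_prod_coe v hu] with x hx hc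
  rw [hc, norm_mul]
  exact mul_le_mul_of_nonneg_right hx (norm_nonneg _)

theorem be_prod_inner {u : Lp ℝ 2 μ} (v w : Lp ℝ 2 μ) {B : ℝ} (hu : ∀ᵐ x ∂μ, |u x| ≤ B) :
    inner ℝ (be_prod u v) w = ∫ x, u x * v x * w x ∂μ := by
  rw [L2.inner_def]
  apply integral_congr_ae
  filter_upwards [be_prod_coe v hu] with x hc
  rw [hc]
  simp [mul_comm]

theorem be_prod_sub_le {u v u' v' : Lp ℝ 2 μ} {B B' B'' : ℝ} (hu : ∀ᵐ x ∂μ, |u x| ≤ B)
    (hu' : ∀ᵐ x ∂μ, |u' x| ≤ B'') (hv' : ∀ᵐ x ∂μ, |v' x| ≤ B') :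
    ‖be_prod u v - be_prod u' v'‖ ≤ B * ‖v - v'‖ + B' * ‖u - u'‖ := by
  have e : be_prod u v - be_prod u' v' = be_prod u (v - v') + be_prod v' (u - u') := by
    apply Lp.ext
    filter_upwards [Lp.coeFn_sub (be_prod u v) (be_prod u' v'), Lp.coeFn_add (be_prod u (v - v')) (be_prod v' (u - u')),
      be_prod_coe v hu, be_prod_coe v' hu', be_prod_coe (v - v') hu, be_prod_coe (u - u') hv',
      Lp.coeFn_sub v v', Lp.coeFn_sub u u'] with x h1 h2 h3 h4 h5 h6 h7 h8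
    rw [h1, h2, Pi.sub_apply, Pi.add_apply, h3, h4, h5, h6, h7, h8, Pi.sub_apply, Pi.sub_apply]
    ring
  rw [e]
  exact (norm_add_le _ _).trans (add_le_add (be_prod_norm_le _ hu) (be_prod_norm_le _ hv'))

/-- continuity of the product along curves which are bounded in `L^∞` -/
theorem be_prod_continuousAt {U V : ℝ → Lp ℝ 2 μ} {s B B' : ℝ} (hU : ContinuousAt U s) (hV : ContinuousAt V s)
    (hUB : ∀ r, ∀ᵐ x ∂μ, |U r x| ≤ B) (hVB : ∀ᵐ x ∂μ, |V s x| ≤ B') :
    ContinuousAt (fun r => be_prod (U r) (V r)) s := by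
  rw [ContinuousAt, tendsto_iff_norm_sub_tendsto_zero]
  have h1 : Tendsto (fun r => B * ‖V r - V s‖ + B' * ‖U r - U s‖) (𝓝 s) (𝓝 (B * 0 + B' * 0)) :=
    ((tendsto_iff_norm_sub_tendsto_zero.mp hV).const_mul B).add
      ((tendsto_iff_norm_sub_tendsto_zero.mp hU).const_mul B')
  simp only [mul_zero, add_zero] at h1
  exact squeeze_zero (fun _ => norm_nonneg _) (fun r => be_prod_sub_le (hUB r) (hUB s) hVB) h1

theorem be_tri_eq {U V : ℝ → Lp ℝ 2 μ} {B : ℝ} (hUB : ∀ r, ∀ᵐ x ∂μ, |U r x| ≤ B) (r : ℝ) :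
    ∫ x, (U r x) ^ 2 * V r x ∂μ = inner ℝ (be_prod (U r) (U r)) (V r) := by
  rw [be_prod_inner _ _ (hUB r)]
  simp only [sq]

theorem be_tri_continuous {U V : ℝ → Lp ℝ 2 μ} {B B' : ℝ} (hU : Continuous U) (hV : Continuous V)
    (hUB : ∀ r, ∀ᵐ x ∂μ, |U r x| ≤ B) (hVB : ∀ r, ∀ᵐ x ∂μ, |V r x| ≤ B') :
    Continuous (fun r => ∫ x, (U r x) ^ 2 * V r x ∂μ) := by
  have e : (fun r => ∫ x, (U r x) ^ 2 * V r x ∂μ) = fun r => inner ℝ (be_prod (U r) (U r)) (V r) :=
    funext fun r => be_tri_eq hUB r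
  rw [e, continuous_iff_continuousAt]
  intro s
  exact (be_prod_continuousAt hU.continuousAt hU.continuousAt hUB (hUB s)).inner hV.continuousAt

/-- product rule when the first factor vanishes at `s` and the second one is only continuous -/
theorem be_inner_hasDerivAt {E : Type*} [NormedAddCommGroup E] [InnerProductSpace ℝ E] {a M : ℝ → E} {a' : E} {s : ℝ}
    (ha : HasDerivAt a a' s) (h0 : a s = 0) (hM : ContinuousAt M s) :
    HasDerivAt (fun r => inner ℝ (a r) (M r)) (inner ℝ a' (M s)) s := by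
  rw [hasDerivAt_iff_tendsto_slope] at ha ⊢
  have h1 : Tendsto (fun r => inner ℝ (slope a s r) (M r)) (𝓝[≠] s) (𝓝 (inner ℝ a' (M s))) :=
    ha.inner (hM.tendsto.mono_left nhdsWithin_le_nhds)
  refine h1.congr fun r => ?_
  simp only [slope_def_module, h0, sub_zero, inner_zero_left, real_inner_smul_left, smul_eq_mul]

theorem be_tri_hasDerivAt {U V : ℝ → Lp ℝ 2 μ} {U' V' : Lp ℝ 2 μ} {s B B' : ℝ}
    (hU : HasDerivAt U U' s) (hV : HasDerivAt V V' s)
    (hUB : ∀ r, ∀ᵐ x ∂μ, |U r x| ≤ B) (hVB : ∀ r, ∀ᵐ x ∂μ, |V r x| ≤ B') :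
    HasDerivAt (fun r => ∫ x, (U r x) ^ 2 * V r x ∂μ)
      (2 * ∫ x, U s x * U' x * V s x ∂μ + ∫ x, (U s x) ^ 2 * V' x ∂μ) s := by
  -- bound for `U r + U s`
  have hsum : ∀ r, ∀ᵐ x ∂μ, |(U r + U s) x| ≤ B + B := by
    intro r
    filter_upwards [hUB r, hUB s, Lp.coeFn_add (U r) (U s)] with x h1 h2 h3
    rw [h3, Pi.add_apply]
    exact (abs_add_le _ _).trans (add_le_add h1 h2)
  set M : ℝ → Lp ℝ 2 μ := fun r => be_prod (V r) (U r + U s) with hM
  set Nn : Lp ℝ 2 μ := be_prod (U s) (U s) with hNn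
  have hMc : ContinuousAt M s :=
    be_prod_continuousAt hV.continuousAt (hU.continuousAt.add continuousAt_const) hVB (hsum s)
  -- decomposition
  have hdec : (fun r => ∫ x, (U r x) ^ 2 * V r x ∂μ)
      = fun r => inner ℝ (U r - U s) (M r) + (inner ℝ Nn (V r - V s) + inner ℝ Nn (V s)) := by
    funext r
    rw [be_tri_eq hUB r, ← inner_add_right, sub_add_cancel, real_inner_comm (M r) (U r - U s), hM]
    simp only
    rw [be_prod_inner _ _ (hVB r), hNn, be_prod_inner _ _ (hUB s), be_prod_inner _ _ (hUB r)]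
    have i1 : Integrable (fun x => V r x * (U r + U s) x * (U r - U s) x) μ :=
      (be_prod_memLp (U r + U s) (hVB r)).integrable_mul (Lp.memLp (U r - U s))
    have i2 : Integrable (fun x => U s x * U s x * V r x) μ :=
      (be_prod_memLp (U s) (hUB s)).integrable_mul (Lp.memLp (V r))
    rw [← integral_add i1 i2]
    apply integral_congr_ae
    filter_upwards [Lp.coeFn_add (U r) (U s), Lp.coeFn_sub (U r) (U s)] with x h1 h2
    rw [h1, h2, Pi.add_apply, Pi.sub_apply]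
    ring
  rw [hdec]
  have d1 : HasDerivAt (fun r => inner ℝ (U r - U s) (M r)) (inner ℝ U' (M s)) s :=
    be_inner_hasDerivAt (hU.sub_const (U s)) (sub_self _) hMc
  have d2 : HasDerivAt (fun r => inner ℝ Nn (V r - V s)) (inner ℝ Nn V') s := by
    have := (hasDerivAt_const s Nn).inner ℝ (hV.sub_const (V s))
    simpa using this
  have d := d1.add (d2.add_const (inner ℝ Nn (V s)))
  have e1 : inner ℝ U' (M s) = 2 * ∫ x, U s x * U' x * V s x ∂μ := by
    rw [real_inner_comm, hM]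
    simp only
    rw [be_prod_inner _ _ (hVB s), ← integral_const_mul]
    apply integral_congr_ae
    filter_upwards [Lp.coeFn_add (U s) (U s)] with x h1
    rw [h1, Pi.add_apply]
    ring
  have e2 : inner ℝ Nn V' = ∫ x, (U s x) ^ 2 * V' x ∂μ := by
    rw [hNn, be_prod_inner _ _ (hUB s)]
    simp only [sq]
  rw [e1, e2] at d
  exact d

end Claimed.Agent.R210.BE.Tri
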