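/-
Row 210 (S0432), layer BE.  The slope at scale `r` of a Lipschitz function.
-/
import Claimed.Agent.R210.BE.Ball

set_option autoImplicit false

open Claims.C0366 Claims.C0366.WeakHessian
open Set Filter MeasureTheory
open scoped ENNReal NNReal Topology

namespace Claimed.Agent.R210.BE.GFun

open Claimed.Agent.R210.BE.Heat Claimed.Agent.R210.Defs Claimed.Agent.R210.Defs2 Claimed.Agent.R210.BE.Defs

variable {X : Type*} [MetricSpace X] [MeasurableSpace X] [BorelSpace X]
  [CompleteSpace X] [TopologicalSpace.SeparableSpace X] [ProperSpace X]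
variable {m : Measure X} {K N : ℝ}

theorem be_G_term_nonneg (f : X → ℝ) (r : ℝ) (x y : X) :
    0 ≤ (if 0 < dist x y ∧ dist x y < r then |f x - f y| / dist x y else 0) := by
  split_ifs
  · positivity
  · exact le_rfl

theorem be_G_term_le {f : X → ℝ} {L : ℝ≥0} (hf : LipschitzWith L f) (r : ℝ) (x y : X) :
    (if 0 < dist x y ∧ dist x y < r then |f x - f y| / dist x y else 0) ≤ (L : ℝ) := by
  split_ifs with h
  · rw [div_le_iff₀ h.1, ← Real.dist_eq]
    exact hf.dist_le_mul x y
  · exact L.coe_nonneg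

theorem be_G_bddAbove {f : X → ℝ} {L : ℝ≥0} (hf : LipschitzWith L f) (r : ℝ) (x : X) :
    BddAbove (range fun y : X =>
      if 0 < dist x y ∧ dist x y < r then |f x - f y| / dist x y else 0) :=
  ⟨L, by rintro _ ⟨y, rfl⟩; exact be_G_term_le hf r x y⟩

theorem be_G_nonneg (f : X → ℝ) (r : ℝ) (x : X) : 0 ≤ be_G f r x :=
  Real.iSup_nonneg fun y => be_G_term_nonneg f r x y

theorem be_G_le {f : X → ℝ} {L : ℝ≥0} (hf : LipschitzWith L f) (r : ℝ) (x : X) :
    be_G f r x ≤ L :=
  Real.iSup_le (fun y => be_G_term_le hf r x y) L.coe_nonneg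

theorem be_G_term_lsc {f : X → ℝ} {L : ℝ≥0} (hf : LipschitzWith L f) (r : ℝ) (y : X) :
    LowerSemicontinuous fun x : X =>
      if 0 < dist x y ∧ dist x y < r then |f x - f y| / dist x y else 0 := by
  intro x c hc
  by_cases hx : 0 < dist x y ∧ dist x y < r
  · have hd : Continuous fun x' : X => dist x' y := continuous_id.dist continuous_const
    have hopen : IsOpen {x' : X | 0 < dist x' y ∧ dist x' y < r} :=
      (isOpen_lt continuous_const hd).inter (isOpen_lt hd continuous_const)
    have hcont : ContinuousAt (fun x' : X => |f x' - f y| / dist x' y) x :=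
      ((hf.continuous.continuousAt.sub continuousAt_const).abs).div hd.continuousAt hx.1.ne'
    simp only [if_pos hx] at hc
    filter_upwards [hopen.mem_nhds hx, hcont.eventually (lt_mem_nhds hc)] with x' h1 h2
    have h1' : 0 < dist x' y ∧ dist x' y < r := h1
    simp only [if_pos h1']
    exact h2
  · simp only [if_neg hx] at hc
    exact Filter.Eventually.of_forall fun x' => hc.trans_le (be_G_term_nonneg f r x' y)

theorem be_G_measurable {f : X → ℝ} {L : ℝ≥0} (hf : LipschitzWith L f) (r : ℝ) :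
    Measurable (be_G f r) :=
  (lowerSemicontinuous_ciSup (fun x => be_G_bddAbove hf r x)
    (fun y => be_G_term_lsc hf r y)).measurable

theorem be_G_spec {f : X → ℝ} {L : ℝ≥0} (hf : LipschitzWith L f) {S : ℝ} (hS : ∀ x, |f x| ≤ S)
    {r : ℝ} (hr : 0 < r) (a b : X) :
    |f a - f b| ≤ be_G f r a * dist a b + 2 * S / r ^ 2 * dist a b ^ 2 := by
  have hS0 : 0 ≤ S := (abs_nonneg _).trans (hS a)
  have hG := be_G_nonneg f r a
  have hd0 : 0 ≤ dist a b := dist_nonneg
  rcases hd0.eq_or_lt with hd | hd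
  · have hab : a = b := dist_eq_zero.1 hd.symm
    subst hab
    simp
  · by_cases hdr : dist a b < r
    · have h1 : |f a - f b| / dist a b ≤ be_G f r a := by
        have := le_ciSup (be_G_bddAbove hf r a) b
        simp only [if_pos (And.intro hd hdr)] at this
        exact this
      have h2 : |f a - f b| ≤ be_G f r a * dist a b := (div_le_iff₀ hd).1 h1
      have h3 : 0 ≤ 2 * S / r ^ 2 * dist a b ^ 2 := by positivity
      linarith
    · have hrd : r ≤ dist a b := not_lt.1 hdr
      have h1 : |f a - f b| ≤ 2 * S := by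
        have := abs_sub (f a) (f b)
        have h2 := hS a
        have h3 := hS b
        linarith
      have h4 : 2 * S ≤ 2 * S / r ^ 2 * dist a b ^ 2 := by
        rw [div_mul_eq_mul_div, le_div_iff₀ (by positivity)]
        have : r ^ 2 ≤ dist a b ^ 2 := pow_le_pow_left₀ hr.le hrd 2
        nlinarith
      have h5 : 0 ≤ be_G f r a * dist a b := mul_nonneg hG hd0
      linarith

/-- `be_G f r` vanishes outside the `r`-neighbourhood of the support -/
theorem be_G_eq_zero {f : X → ℝ} {o : X} {R r : ℝ} (hsupp : ∀ x, R < dist x o → f x = 0)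
    {x : X} (hx : R + r < dist x o) : be_G f r x = 0 := by
  have h : (fun y : X => if 0 < dist x y ∧ dist x y < r then |f x - f y| / dist x y else 0)
      = fun _ => (0 : ℝ) := by
    funext y
    split_ifs with hy
    · have hr : 0 < r := hy.1.trans hy.2
      have h1 : f x = 0 := hsupp x (by linarith)
      have h2 : f y = 0 := by
        refine hsupp y ?_
        have := dist_triangle x y o
        linarith [hy.2]
      rw [h1, h2]
      simp
    · rfl
  unfold be_G
  rw [h]
  have : Nonempty X := ⟨x⟩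
  exact ciSup_const

theorem be_lipC_supp_aux {f : X → ℝ} (hf : LipC f) (o : X) :
    ∃ R : ℝ, 0 < R ∧ ∀ x, R < dist x o → f x = 0 := by
  obtain ⟨r, hr⟩ := hf.2.isCompact.isBounded.subset_ball o
  refine ⟨max r 1, lt_max_of_lt_right one_pos, fun x hx => ?_⟩
  by_contra hne
  have h1 : x ∈ Metric.ball o r := hr (subset_tsupport _ hne)
  rw [Metric.mem_ball] at h1
  exact absurd (h1.trans_le (le_max_left r 1)) (not_lt.2 hx.le)

theorem be_G_sq_memLp (hS : Std m K N) {f : X → ℝ} (hf : LipC f) (r : ℝ) :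
    MemLp (fun x => be_G f r x ^ 2) 2 m := by
  rcases isEmpty_or_nonempty X with hX | ⟨⟨o⟩⟩
  · rw [Measure.eq_zero_of_isEmpty m]
    exact memLp_measure_zero
  obtain ⟨L, hL⟩ := hf.1
  obtain ⟨R, hR, hsupp⟩ := be_lipC_supp_aux hf o
  have hind : MemLp ((Metric.closedBall o (R + r)).indicator fun _ => ((L : ℝ) ^ 2)) 2 m :=
    memLp_indicator_const 2 measurableSet_closedBall _
      (Or.inr (hS.finite _ Metric.isBounded_closedBall).ne)
  refine hind.mono ((be_G_measurable hL r).pow_const 2).aestronglyMeasurable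
    (Filter.Eventually.of_forall fun x => ?_)
  rw [Real.norm_eq_abs, Real.norm_eq_abs]
  by_cases hx : x ∈ Metric.closedBall o (R + r)
  · rw [indicator_of_mem hx, abs_of_nonneg (sq_nonneg _), abs_of_nonneg (sq_nonneg _)]
    exact pow_le_pow_left₀ (be_G_nonneg f r x) (be_G_le hL r x) 2
  · rw [indicator_of_notMem hx]
    rw [Metric.mem_closedBall, not_le] at hx
    rw [be_G_eq_zero hsupp hx]
    simp

/-- the quotients are bounded by the Lipschitz constant -/
theorem be_quot_le {f : X → ℝ} {L : ℝ≥0} (hf : LipschitzWith L f) (x y : X) :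
    |f x - f y| / dist x y ≤ L := by
  have h := hf.dist_le_mul x y
  rw [Real.dist_eq] at h
  rcases eq_or_lt_of_le (dist_nonneg : 0 ≤ dist x y) with h0 | h0
  · rw [← h0, div_zero]
    exact L.coe_nonneg
  · rw [div_le_iff₀ h0]
    exact h

/-- the supremum (in `ℝ≥0∞`) of the quotients over the punctured ball is `be_G` -/
theorem be_G_eq_biSup {f : X → ℝ} {L : ℝ≥0} (hf : LipschitzWith L f) (r : ℝ) (x : X) :
    (⨆ y ∈ Metric.ball x r ∩ {x}ᶜ, ENNReal.ofReal (|f y - f x| / dist y x))
      = ENNReal.ofReal (be_G f r x) := by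
  have hle : (⨆ y ∈ Metric.ball x r ∩ {x}ᶜ, ENNReal.ofReal (|f y - f x| / dist y x)) ≤ (L : ℝ≥0∞) := by
    refine iSup₂_le fun y _ => ?_
    rw [← ENNReal.ofReal_coe_nnreal]
    exact ENNReal.ofReal_le_ofReal (be_quot_le hf y x)
  have hne : (⨆ y ∈ Metric.ball x r ∩ {x}ᶜ, ENNReal.ofReal (|f y - f x| / dist y x)) ≠ ⊤ :=
    ne_top_of_le_ne_top ENNReal.coe_ne_top hle
  apply le_antisymm
  · refine iSup₂_le fun y hy => ENNReal.ofReal_le_ofReal ?_
    have h1 : dist x y < r := by rw [dist_comm]; exact hy.1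
    have h2 : 0 < dist x y := dist_pos.2 (fun h => hy.2 h.symm)
    have h3 := le_ciSup (be_G_bddAbove hf r x) y
    rw [if_pos ⟨h2, h1⟩] at h3
    rw [abs_sub_comm, dist_comm]
    exact h3
  · rw [ENNReal.ofReal_le_iff_le_toReal hne]
    rcases isEmpty_or_nonempty X with hX | hX
    · exact (hX.false x).elim
    refine ciSup_le fun y => ?_
    split_ifs with hc
    · have hy : y ∈ Metric.ball x r ∩ {x}ᶜ := by
        refine ⟨by rw [Metric.mem_ball, dist_comm]; exact hc.2, fun h => ?_⟩
        rw [Set.mem_singleton_iff] at h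
        rw [h, dist_self] at hc
        exact lt_irrefl _ hc.1
      have h1 : ENNReal.ofReal (|f y - f x| / dist y x)
          ≤ ⨆ y ∈ Metric.ball x r ∩ {x}ᶜ, ENNReal.ofReal (|f y - f x| / dist y x) :=
        le_iSup₂ (f := fun y (_ : y ∈ Metric.ball x r ∩ {x}ᶜ) =>
          ENNReal.ofReal (|f y - f x| / dist y x)) y hy
      have h2 := ENNReal.toReal_mono hne h1
      rw [ENNReal.toReal_ofReal (div_nonneg (abs_nonneg _) dist_nonneg)] at h2
      rw [abs_sub_comm, dist_comm]
      exact h2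
    · exact ENNReal.toReal_nonneg

theorem be_localSlope_eq_iInf {f : X → ℝ} {L : ℝ≥0} (hf : LipschitzWith L f) (x : X) :
    localSlope f x = ⨅ n : ℕ, ENNReal.ofReal (be_G f (1 / ((n : ℝ) + 1)) x) := by
  unfold localSlope
  rw [(nhdsWithin_hasBasis Metric.nhds_basis_ball_inv_nat_succ ({x}ᶜ)).limsup_eq_iInf_iSup]
  refine iInf_congr fun n => ?_
  rw [iInf_pos trivial]
  exact be_G_eq_biSup hf _ x

theorem be_localSlope_le {f : X → ℝ} {L : ℝ≥0} (hf : LipschitzWith L f) (x : X) :
    localSlope f x ≤ L := by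
  rw [be_localSlope_eq_iInf hf x]
  refine (iInf_le _ 0).trans ?_
  rw [← ENNReal.ofReal_coe_nnreal]
  exact ENNReal.ofReal_le_ofReal (be_G_le hf _ x)

theorem be_localSlope_ne_top {f : X → ℝ} {L : ℝ≥0} (hf : LipschitzWith L f) (x : X) :
    localSlope f x ≠ ⊤ :=
  ne_top_of_le_ne_top ENNReal.coe_ne_top (be_localSlope_le hf x)

theorem be_G_tendsto {f : X → ℝ} {L : ℝ≥0} (hf : LipschitzWith L f) (x : X) :
    Tendsto (fun n : ℕ => be_G f (1 / ((n : ℝ) + 1)) x) atTop (𝓝 (be_slope f x)) := by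
  have hanti : Antitone fun n : ℕ => ENNReal.ofReal (be_G f (1 / ((n : ℝ) + 1)) x) := by
    intro a b hab
    dsimp only
    rw [← be_G_eq_biSup hf, ← be_G_eq_biSup hf]
    refine biSup_mono fun y hy => ⟨Metric.ball_subset_ball ?_ hy.1, hy.2⟩
    have ha : (0 : ℝ) < (a : ℝ) + 1 := by positivity
    have hab' : (a : ℝ) ≤ b := by exact_mod_cast hab
    exact one_div_le_one_div_of_le ha (by linarith)
  have h1 := tendsto_atTop_iInf hanti
  rw [← be_localSlope_eq_iInf hf x] at h1
  have h2 := (ENNReal.tendsto_toReal (be_localSlope_ne_top hf x)).comp h1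
  refine h2.congr fun n => ?_
  exact ENNReal.toReal_ofReal (be_G_nonneg f _ x)

theorem be_slope_nonneg (f : X → ℝ) (x : X) : 0 ≤ be_slope f x := ENNReal.toReal_nonneg

theorem be_slope_le {f : X → ℝ} {L : ℝ≥0} (hf : LipschitzWith L f) (x : X) :
    be_slope f x ≤ L := by
  have h := ENNReal.toReal_mono ENNReal.coe_ne_top (be_localSlope_le hf x)
  rwa [ENNReal.coe_toReal] at h

theorem be_ofReal_slope {f : X → ℝ} {L : ℝ≥0} (hf : LipschitzWith L f) (x : X) :
    ENNReal.ofReal (be_slope f x) = localSlope f x :=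
  ENNReal.ofReal_toReal (be_localSlope_ne_top hf x)

theorem be_slope_measurable {f : X → ℝ} {L : ℝ≥0} (hf : LipschitzWith L f) :
    Measurable (be_slope f) :=
  measurable_of_tendsto_metrizable (fun n : ℕ => be_G_measurable hf (1 / ((n : ℝ) + 1)))
    (tendsto_pi_nhds.2 (be_G_tendsto hf))

/-- a bounded measurable function with bounded support is in every `L^p` -/
theorem be_memLp_of_bdd_supp (hS : Std m K N) {g : X → ℝ} (hg : Measurable g) {C : ℝ}
    (hC : ∀ x, |g x| ≤ C) {o : X} {R : ℝ} (hz : ∀ x, R < dist x o → g x = 0) (p : ℝ≥0∞) :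
    MemLp g p m := by
  have hind : (Metric.closedBall o R).indicator g = g := by
    funext x
    by_cases hx : x ∈ Metric.closedBall o R
    · exact Set.indicator_of_mem hx g
    · rw [Set.indicator_of_notMem hx]
      exact (hz x (by simpa [Metric.mem_closedBall] using hx)).symm
  rw [← hind, memLp_indicator_iff_restrict Metric.isClosed_closedBall.measurableSet]
  have : IsFiniteMeasure (m.restrict (Metric.closedBall o R)) :=
    ⟨by rw [Measure.restrict_apply_univ]; exact hS.finite _ Metric.isBounded_closedBall⟩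
  exact MemLp.of_bound hg.aestronglyMeasurable C (Filter.Eventually.of_forall fun x => by
    rw [Real.norm_eq_abs]; exact hC x)

theorem be_slope_eq_zero {f : X → ℝ} {L : ℝ≥0} (hf : LipschitzWith L f) {o : X} {R : ℝ}
    (hsupp : ∀ x, R < dist x o → f x = 0) {x : X} (hx : R + 1 < dist x o) : be_slope f x = 0 := by
  refine tendsto_nhds_unique (be_G_tendsto hf x) ?_
  refine tendsto_const_nhds.congr fun n => ?_
  refine (be_G_eq_zero hsupp ?_).symm
  have h1 : 1 / ((n : ℝ) + 1) ≤ 1 := by
    rw [div_le_one (by positivity)]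
    have : (0 : ℝ) ≤ n := Nat.cast_nonneg n
    linarith
  linarith

theorem be_supp_of_compact {f : X → ℝ} (hf : HasCompactSupport f) (o : X) :
    ∃ R : ℝ, ∀ x, R < dist x o → f x = 0 := by
  obtain ⟨R, hR⟩ := hf.isCompact.isBounded.subset_closedBall o
  refine ⟨R, fun x hx => image_eq_zero_of_notMem_tsupport fun h => ?_⟩
  have := hR h
  rw [Metric.mem_closedBall] at this
  linarith

theorem be_slope_memLp (hS : Std m K N) {f : X → ℝ} (hf : LipC f) (p : ℝ≥0∞) :
    MemLp (be_slope f) p m := by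
  obtain ⟨⟨L, hL⟩, hc⟩ := hf
  rcases isEmpty_or_nonempty X with hX | ⟨⟨o⟩⟩
  · rw [Measure.eq_zero_of_isEmpty m]
    exact ⟨aestronglyMeasurable_zero_measure _, by simp⟩
  obtain ⟨R, hR⟩ := be_supp_of_compact hc o
  refine be_memLp_of_bdd_supp hS (be_slope_measurable hL) (C := L) (fun x => ?_) (o := o) (R := R + 1)
    (fun x hx => be_slope_eq_zero hL hR hx) p
  rw [abs_of_nonneg (be_slope_nonneg f x)]
  exact be_slope_le hL x

theorem be_slope_sq_memLp (hS : Std m K N) {f : X → ℝ} (hf : LipC f) (p : ℝ≥0∞) :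
    MemLp (fun x => be_slope f x ^ 2) p m := by
  obtain ⟨⟨L, hL⟩, hc⟩ := hf
  rcases isEmpty_or_nonempty X with hX | ⟨⟨o⟩⟩
  · rw [Measure.eq_zero_of_isEmpty m]
    exact ⟨aestronglyMeasurable_zero_measure _, by simp⟩
  obtain ⟨R, hR⟩ := be_supp_of_compact hc o
  refine be_memLp_of_bdd_supp hS ((be_slope_measurable hL).pow_const 2) (C := (L : ℝ) ^ 2) (fun x => ?_)
    (o := o) (R := R + 1) (fun x hx => by rw [be_slope_eq_zero hL hR hx]; norm_num) p
  rw [abs_of_nonneg (by positivity)]
  exact pow_le_pow_left₀ (be_slope_nonneg f x) (be_slope_le hL x) 2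

/-- elementary facts on `LipC` -/
theorem be_lipC_memLp (hS : Std m K N) {f : X → ℝ} (hf : LipC f) (p : ℝ≥0∞) : MemLp f p m := by
  obtain ⟨L, hL⟩ := hf.1
  have := Ball.be_locFinite hS
  exact hL.continuous.memLp_of_hasCompactSupport hf.2

theorem be_lipC_bdd {f : X → ℝ} (hf : LipC f) : ∃ S : ℝ, 0 ≤ S ∧ ∀ x, |f x| ≤ S := by
  obtain ⟨L, hL⟩ := hf.1
  obtain ⟨C, hC⟩ := hf.2.exists_bound_of_continuous hL.continuous
  exact ⟨max C 0, le_max_right _ _, fun x => (hC x).trans (le_max_left _ _)⟩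

theorem be_lipC_supp {f : X → ℝ} (hf : LipC f) (o : X) :
    ∃ R : ℝ, 0 < R ∧ ∀ x, R < dist x o → f x = 0 := be_lipC_supp_aux hf o

end Claimed.Agent.R210.BE.GFun
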