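/-
Row 210 (S0432), layer BE.  Kuwada duality: from the W2-contraction to averaged gradient estimates.
-/
import Claimed.Agent.R210.BE.Ball
import Claimed.Agent.R210.BE.GFun

set_option autoImplicit false

open Claims.C0366 Claims.C0366.WeakHessian
open Set Filter MeasureTheory
open scoped ENNReal NNReal Topology

namespace Claimed.Agent.R210.BE.Kuw

open Claimed.Agent.R210.BE.Heat Claimed.Agent.R210.Defs Claimed.Agent.R210.Defs2 Claimed.Agent.R210.BE.Defs
  Claimed.Agent.R210.BE.Need Claimed.Agent.R210.BE.Ball Claimed.Agent.R210.BE.GFun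

variable {X : Type*} [MetricSpace X] [MeasurableSpace X] [BorelSpace X]
  [CompleteSpace X] [TopologicalSpace.SeparableSpace X] [ProperSpace X]
variable {m : Measure X} {K N : ℝ}

/-- Cauchy-Schwarz for real integrals, via the discriminant. -/
theorem be_integral_mul_le_sqrt {Ω : Type*} [MeasurableSpace Ω] {q : Measure Ω} {u v : Ω → ℝ}
    (hu : Integrable (fun p => u p ^ 2) q) (hv : Integrable (fun p => v p ^ 2) q)
    (huv : Integrable (fun p => u p * v p) q) :
    ∫ p, u p * v p ∂q ≤ Real.sqrt (∫ p, u p ^ 2 ∂q) * Real.sqrt (∫ p, v p ^ 2 ∂q) := by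
  set A := ∫ p, u p ^ 2 ∂q with hA
  set T := ∫ p, v p ^ 2 ∂q with hT
  set I := ∫ p, u p * v p ∂q with hI
  have hA0 : 0 ≤ A := integral_nonneg (fun p => sq_nonneg _)
  have hT0 : 0 ≤ T := integral_nonneg (fun p => sq_nonneg _)
  have key : ∀ s : ℝ, 0 ≤ A * (s * s) + (-2 * I) * s + T := by
    intro s
    have h1 : ∫ p, (s * u p - v p) ^ 2 ∂q = A * (s * s) + (-2 * I) * s + T := by
      have e : (fun p => (s * u p - v p) ^ 2)
          = fun p => (s * s) * u p ^ 2 + (-2 * s) * (u p * v p) + v p ^ 2 := by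
        funext p; ring
      have j1 : Integrable (fun p => (s * s) * u p ^ 2) q := hu.const_mul _
      have j2 : Integrable (fun p => (-2 * s) * (u p * v p)) q := huv.const_mul _
      have j3 : Integrable (fun p => (s * s) * u p ^ 2 + (-2 * s) * (u p * v p)) q := j1.add j2
      rw [e, integral_add j3 hv, integral_add j1 j2, integral_const_mul, integral_const_mul]
      ring
    rw [← h1]
    exact integral_nonneg (fun p => sq_nonneg _)
  have hd := discrim_le_zero key
  have hsq : I ^ 2 ≤ A * T := by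
    unfold discrim at hd
    nlinarith
  rw [← Real.sqrt_mul hA0]
  exact Real.le_sqrt_of_sq_le hsq

/-- The coupling inequality for one coupling of finite cost. -/
theorem be_coupling_ineq_one {μ ν : Measure X} {f G : X → ℝ} {c : ℝ} (hc : 0 ≤ c)
    (hfm : Measurable f) (hGm : Measurable G) (hG0 : ∀ x, 0 ≤ G x)
    (hfμ : Integrable f μ) (hfν : Integrable f ν) (hGμ : Integrable (fun x => G x ^ 2) μ)
    (hfG : ∀ a b, |f a - f b| ≤ G a * dist a b + c * dist a b ^ 2)
    {q : Measure (X × X)} (hq : IsCoupling q μ ν) (hT : QuadraticTransportCost q ≠ ∞) :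
    |∫ x, f x ∂μ - ∫ x, f x ∂ν| ≤
      Real.sqrt (∫ x, G x ^ 2 ∂μ) * Real.sqrt (QuadraticTransportCost q).toReal
        + c * (QuadraticTransportCost q).toReal := by
  obtain ⟨h1, h2⟩ := hq
  have hdm : Measurable (fun p : X × X => dist p.1 p.2) := measurable_fst.dist measurable_snd
  -- integrals over the marginals
  have e1 : ∫ x, f x ∂μ = ∫ p, f p.1 ∂q := by
    rw [← h1, integral_map measurable_fst.aemeasurable hfm.aestronglyMeasurable]
  have e2 : ∫ x, f x ∂ν = ∫ p, f p.2 ∂q := by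
    rw [← h2, integral_map measurable_snd.aemeasurable hfm.aestronglyMeasurable]
  have e3 : ∫ x, G x ^ 2 ∂μ = ∫ p, G p.1 ^ 2 ∂q := by
    rw [← h1, integral_map measurable_fst.aemeasurable (hGm.pow_const 2).aestronglyMeasurable]
  have i1 : Integrable (fun p : X × X => f p.1) q := by
    have := hfμ
    rw [← h1] at this
    exact (integrable_map_measure hfm.aestronglyMeasurable measurable_fst.aemeasurable).1 this
  have i2 : Integrable (fun p : X × X => f p.2) q := by
    have := hfν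
    rw [← h2] at this
    exact (integrable_map_measure hfm.aestronglyMeasurable measurable_snd.aemeasurable).1 this
  have i3 : Integrable (fun p : X × X => G p.1 ^ 2) q := by
    have := hGμ
    rw [← h1] at this
    exact (integrable_map_measure (hGm.pow_const 2).aestronglyMeasurable
      measurable_fst.aemeasurable).1 this
  have hcost : ∫⁻ p, ENNReal.ofReal (dist p.1 p.2 ^ 2) ∂q = QuadraticTransportCost q := by
    unfold QuadraticTransportCost
    refine lintegral_congr (fun p => ?_)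
    rw [edist_dist, ENNReal.ofReal_pow dist_nonneg]
  have i4 : Integrable (fun p : X × X => dist p.1 p.2 ^ 2) q := by
    refine ⟨(hdm.pow_const 2).aestronglyMeasurable, ?_⟩
    rw [hasFiniteIntegral_iff_ofReal (Eventually.of_forall (fun p => sq_nonneg _)), hcost]
    exact lt_top_iff_ne_top.2 hT
  have e4 : ∫ p, dist p.1 p.2 ^ 2 ∂q = (QuadraticTransportCost q).toReal := by
    rw [integral_eq_lintegral_of_nonneg_ae (Eventually.of_forall (fun p => sq_nonneg _))
      (hdm.pow_const 2).aestronglyMeasurable, hcost]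
  have i5 : Integrable (fun p : X × X => G p.1 * dist p.1 p.2) q := by
    refine Integrable.mono' (i3.add i4)
      ((hGm.comp measurable_fst).mul hdm).aestronglyMeasurable (Eventually.of_forall (fun p => ?_))
    have hg := hG0 p.1
    have hd : 0 ≤ dist p.1 p.2 := dist_nonneg
    rw [Real.norm_eq_abs, abs_of_nonneg (mul_nonneg hg hd)]
    simp only [Pi.add_apply]
    nlinarith [sq_nonneg (G p.1 - dist p.1 p.2), sq_nonneg (G p.1), sq_nonneg (dist p.1 p.2)]
  have cs := be_integral_mul_le_sqrt i3 i4 i5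
  rw [e1, e2, ← integral_sub i1 i2, e3, ← e4]
  calc |∫ p, (f p.1 - f p.2) ∂q| ≤ ∫ p, |f p.1 - f p.2| ∂q := abs_integral_le_integral_abs
    _ ≤ ∫ p, (G p.1 * dist p.1 p.2 + c * dist p.1 p.2 ^ 2) ∂q :=
        integral_mono (i1.sub i2).abs (i5.add (i4.const_mul c)) (fun p => hfG p.1 p.2)
    _ = ∫ p, G p.1 * dist p.1 p.2 ∂q + c * ∫ p, dist p.1 p.2 ^ 2 ∂q := by
        rw [integral_add i5 (i4.const_mul c), integral_const_mul]
    _ ≤ _ := by linarith

/-- Abstract coupling inequality (no curvature, no reference measure). -/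
theorem be_coupling_ineq {μ ν : Measure X} {f G : X → ℝ} {c : ℝ} (hc : 0 ≤ c)
    (hfm : Measurable f) (hGm : Measurable G) (hG0 : ∀ x, 0 ≤ G x)
    (hfμ : Integrable f μ) (hfν : Integrable f ν) (hGμ : Integrable (fun x => G x ^ 2) μ)
    (hfG : ∀ a b, |f a - f b| ≤ G a * dist a b + c * dist a b ^ 2)
    (hW : W2sq μ ν ≠ ∞) :
    |∫ x, f x ∂μ - ∫ x, f x ∂ν| ≤
      Real.sqrt (∫ x, G x ^ 2 ∂μ) * Real.sqrt (W2sqR μ ν) + c * W2sqR μ ν := by
  set A := ∫ x, G x ^ 2 ∂μ with hA
  set W := W2sqR μ ν with hWdef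
  have hW0 : 0 ≤ W := ENNReal.toReal_nonneg
  have step : ∀ ε : ℝ, 0 < ε → |∫ x, f x ∂μ - ∫ x, f x ∂ν| ≤
      Real.sqrt A * Real.sqrt (W + ε) + c * (W + ε) := by
    intro ε hε
    have hlt : W2sq μ ν < W2sq μ ν + ENNReal.ofReal ε :=
      ENNReal.lt_add_right hW (by simpa using hε)
    unfold W2sq at hlt
    rw [iInf_lt_iff] at hlt
    obtain ⟨q, hq⟩ := hlt
    rw [iInf_lt_iff] at hq
    obtain ⟨hqc, hq⟩ := hq
    have hfin : QuadraticTransportCost q ≠ ∞ := ne_top_of_lt hq
    have hTle : (QuadraticTransportCost q).toReal ≤ W + ε := by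
      have h := ENNReal.toReal_mono (ENNReal.add_ne_top.2 ⟨hW, ENNReal.ofReal_ne_top⟩) hq.le
      rw [ENNReal.toReal_add hW ENNReal.ofReal_ne_top, ENNReal.toReal_ofReal hε.le] at h
      exact h
    have h1 := be_coupling_ineq_one hc hfm hGm hG0 hfμ hfν hGμ hfG hqc hfin
    refine h1.trans ?_
    have hs : Real.sqrt (QuadraticTransportCost q).toReal ≤ Real.sqrt (W + ε) :=
      Real.sqrt_le_sqrt hTle
    have := mul_le_mul_of_nonneg_left hs (Real.sqrt_nonneg A)
    have := mul_le_mul_of_nonneg_left hTle hc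
    linarith
  have hcont : Tendsto (fun ε : ℝ => Real.sqrt A * Real.sqrt (W + ε) + c * (W + ε)) (𝓝[>] 0)
      (𝓝 (Real.sqrt A * Real.sqrt (W + 0) + c * (W + 0))) := by
    apply Tendsto.mono_left _ nhdsWithin_le_nhds
    apply Continuous.tendsto
    fun_prop
  rw [add_zero] at hcont
  exact ge_of_tendsto hcont (eventually_nhdsWithin_of_forall (fun ε hε => step ε hε))

/-- Averaged Kuwada estimate. -/
theorem be_kuwada_avg (hS : Std m K N) {f G : X → ℝ} {c : ℝ} (hf : LipC f) (hc : 0 ≤ c)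
    (hGm : Measurable G) (hG0 : ∀ x, 0 ≤ G x) (hG2 : MemLp (fun x => G x ^ 2) 2 m)
    (hfG : ∀ a b, |f a - f b| ≤ G a * dist a b + c * dist a b ^ 2)
    (x y : X) {ϱ t : ℝ} (hϱ : 0 < ϱ) (ht : 0 ≤ t) :
    |be_av m (heatF m t f) x ϱ - be_av m (heatF m t f) y ϱ| ≤
      Real.exp (-K * t) * (dist x y + 2 * ϱ) *
          Real.sqrt (be_av m (heatF m t (fun z => G z ^ 2)) x ϱ)
        + c * Real.exp (-2 * K * t) * (dist x y + 2 * ϱ) ^ 2 := by
  have hfL2 : MemLp f 2 m := be_lipC_memLp hS hf 2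
  have hfm : Measurable f := by
    obtain ⟨L, hL⟩ := hf.1
    exact hL.continuous.measurable
  have hG2m : Measurable (fun z => G z ^ 2) := hGm.pow_const 2
  -- general facts for a centre `w`
  have key : ∀ w : X,
      (∀ᵐ z ∂m, 0 ≤ heatF m t (be_nb m w ϱ) z) ∧
      AEMeasurable (heatF m t (be_nb m w ϱ)) m ∧
      (∀ u : X → ℝ, MemLp u 2 m → Measurable u →
        be_av m (heatF m t u) w ϱ = ∫ z, u z ∂(dens m (heatF m t (be_nb m w ϱ))) ∧
        Integrable u (dens m (heatF m t (be_nb m w ϱ)))) := by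
    intro w
    have hnb : MemLp (be_nb m w ϱ) 2 m := be_nb_memLp hS w ϱ 2
    have hρ : MemLp (heatF m t (be_nb m w ϱ)) 2 m := be_heat_memLp t _
    have hρ0 : ∀ᵐ z ∂m, 0 ≤ heatF m t (be_nb m w ϱ) z :=
      be_need_heat_nonneg hS hnb (Filter.Eventually.of_forall (be_nb_nonneg w ϱ)) t
    have hρm : AEMeasurable (heatF m t (be_nb m w ϱ)) m := hρ.aestronglyMeasurable.aemeasurable
    refine ⟨hρ0, hρm, fun u hu hum => ⟨?_, ?_⟩⟩
    · rw [be_integral_dens hρm hρ0 u]
      unfold be_av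
      exact be_need_heat_symm hS hu hnb t
    · refine be_integrable_dens hρm hρ0 hum ?_
      exact hu.integrable_mul hρ
  obtain ⟨-, -, hx⟩ := key x
  obtain ⟨-, -, hy⟩ := key y
  obtain ⟨hfx, hfxi⟩ := hx f hfL2 hfm
  obtain ⟨hfy, hfyi⟩ := hy f hfL2 hfm
  obtain ⟨hGx, hGxi⟩ := hx (fun z => G z ^ 2) hG2 hG2m
  set μ := dens m (heatF m t (be_nb m x ϱ)) with hμ
  set ν := dens m (heatF m t (be_nb m y ϱ)) with hν
  have hd : 0 ≤ dist x y + 2 * ϱ := by positivity
  -- the Wasserstein bound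
  have hWle : W2sq μ ν ≤ ENNReal.ofReal (Real.exp (-2 * K * t) * (dist x y + 2 * ϱ) ^ 2) := by
    rw [ENNReal.ofReal_mul (Real.exp_pos _).le]
    exact (be_need_contraction hS x y hϱ ht).trans (by gcongr; exact be_nb_W2sq hS x y hϱ)
  have hW : W2sq μ ν ≠ ∞ := (hWle.trans_lt ENNReal.ofReal_lt_top).ne
  have hWR : W2sqR μ ν ≤ Real.exp (-2 * K * t) * (dist x y + 2 * ϱ) ^ 2 := by
    unfold W2sqR
    exact ENNReal.toReal_le_of_le_ofReal (by positivity) hWle
  have hWR0 : 0 ≤ W2sqR μ ν := ENNReal.toReal_nonneg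
  have hsq : Real.sqrt (W2sqR μ ν) ≤ Real.exp (-K * t) * (dist x y + 2 * ϱ) := by
    have h1 : Real.exp (-2 * K * t) * (dist x y + 2 * ϱ) ^ 2
        = (Real.exp (-K * t) * (dist x y + 2 * ϱ)) ^ 2 := by
      rw [mul_pow, ← Real.exp_nat_mul]
      congr 2
      push_cast
      ring
    rw [h1] at hWR
    exact Real.sqrt_le_iff.2 ⟨by positivity, hWR⟩
  have main := be_coupling_ineq hc hfm hGm hG0 hfxi hfyi hGxi hfG hW
  rw [hfx, hfy, hGx]
  refine main.trans ?_
  have hs0 : 0 ≤ Real.sqrt (∫ z, G z ^ 2 ∂μ) := Real.sqrt_nonneg _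
  calc Real.sqrt (∫ z, G z ^ 2 ∂μ) * Real.sqrt (W2sqR μ ν) + c * W2sqR μ ν
      ≤ Real.sqrt (∫ z, G z ^ 2 ∂μ) * (Real.exp (-K * t) * (dist x y + 2 * ϱ))
          + c * (Real.exp (-2 * K * t) * (dist x y + 2 * ϱ) ^ 2) := by
        gcongr
    _ = Real.exp (-K * t) * (dist x y + 2 * ϱ) * Real.sqrt (∫ z, G z ^ 2 ∂μ)
          + c * Real.exp (-2 * K * t) * (dist x y + 2 * ϱ) ^ 2 := by ring

end Claimed.Agent.R210.BE.Kuw
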