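/-
Row 210 (S0432), layer BE.  BE1: gradient estimate for the heat flow of compactly supported
Lipschitz functions.
-/
import Claimed.Agent.R210.BE.Kuw
import Claimed.Agent.R210.BE.Leb

set_option autoImplicit false

open Claims.C0366 Claims.C0366.WeakHessian
open Set Filter MeasureTheory
open scoped ENNReal NNReal Topology

namespace Claimed.Agent.R210.BE.One

open Claimed.Agent.R210.BE.Heat Claimed.Agent.R210.Defs Claimed.Agent.R210.Defs2 Claimed.Agent.R210.BE.Defs
  Claimed.Agent.R210.BE.Need Claimed.Agent.R210.BE.Ball Claimed.Agent.R210.BE.GFun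
  Claimed.Agent.R210.BE.Kuw Claimed.Agent.R210.BE.Leb

variable {X : Type*} [MetricSpace X] [MeasurableSpace X] [BorelSpace X]
  [CompleteSpace X] [TopologicalSpace.SeparableSpace X] [ProperSpace X]
variable {m : Measure X} {K N : ℝ}

/-- BE1 (a): Lipschitz representative with constant `e^{-Kt} L`. -/
theorem be_one_lip (hS : Std m K N) {f : X → ℝ} {L : ℝ≥0} (hf : LipschitzWith L f)
    (hc : HasCompactSupport f) {t : ℝ} (ht : 0 ≤ t) :
    ∃ g : X → ℝ, LipschitzWith (Real.toNNReal (Real.exp (-K * t) * L)) g ∧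
      g =ᵐ[m] heatF m t f := by
  have hfC : LipC f := ⟨⟨L, hf⟩, hc⟩
  obtain ⟨S, hS0, hSb⟩ := be_lipC_bdd hfC
  refine be_lip_of_avg hS (by positivity) (be_locInt_of_memLp hS (be_heat_memLp t f)) ?_
  intro x y ϱ hϱ
  have hd : 0 ≤ dist x y + 2 * ϱ := by positivity
  have hr : ∀ r : ℝ, 0 < r → |be_av m (heatF m t f) x ϱ - be_av m (heatF m t f) y ϱ| ≤
      Real.exp (-K * t) * L * (dist x y + 2 * ϱ) +
        2 * S / r ^ 2 * (Real.exp (-2 * K * t) * (dist x y + 2 * ϱ) ^ 2) := by
    intro r hr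
    have h1 := be_kuwada_avg hS hfC (c := 2 * S / r ^ 2) (by positivity) (be_G_measurable hf r)
      (be_G_nonneg f r) (be_G_sq_memLp hS hfC r) (be_G_spec hf hSb hr) x y hϱ ht
    have hB : AEBdd m (fun z => be_G f r z ^ 2) ((L : ℝ) ^ 2) := by
      refine Eventually.of_forall fun z => ?_
      rw [abs_of_nonneg (by positivity)]
      exact pow_le_pow_left₀ (be_G_nonneg f r z) (be_G_le hf r z) 2
    have hB' := be_need_heat_bdd hS (be_G_sq_memLp hS hfC r) hB t
    have h2 : be_av m (heatF m t (fun z => be_G f r z ^ 2)) x ϱ ≤ (L : ℝ) ^ 2 :=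
      be_av_le hS (be_locInt_of_memLp hS (be_heat_memLp t _))
        (hB'.mono fun z hz => (le_abs_self _).trans hz) x hϱ
    have h3 : Real.sqrt (be_av m (heatF m t (fun z => be_G f r z ^ 2)) x ϱ) ≤ L := by
      calc Real.sqrt (be_av m (heatF m t (fun z => be_G f r z ^ 2)) x ϱ)
          ≤ Real.sqrt ((L : ℝ) ^ 2) := Real.sqrt_le_sqrt h2
        _ = L := Real.sqrt_sq L.coe_nonneg
    have h4 : Real.exp (-K * t) * (dist x y + 2 * ϱ) *
        Real.sqrt (be_av m (heatF m t (fun z => be_G f r z ^ 2)) x ϱ) ≤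
        Real.exp (-K * t) * (dist x y + 2 * ϱ) * L :=
      mul_le_mul_of_nonneg_left h3 (by positivity)
    calc |be_av m (heatF m t f) x ϱ - be_av m (heatF m t f) y ϱ| ≤ _ := h1
      _ ≤ Real.exp (-K * t) * (dist x y + 2 * ϱ) * L +
          2 * S / r ^ 2 * Real.exp (-2 * K * t) * (dist x y + 2 * ϱ) ^ 2 := by linarith
      _ = _ := by ring
  have hlim : Tendsto (fun r : ℝ => Real.exp (-K * t) * L * (dist x y + 2 * ϱ) +
        2 * S / r ^ 2 * (Real.exp (-2 * K * t) * (dist x y + 2 * ϱ) ^ 2)) atTop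
      (𝓝 (Real.exp (-K * t) * L * (dist x y + 2 * ϱ) +
        0 * (Real.exp (-2 * K * t) * (dist x y + 2 * ϱ) ^ 2))) :=
    tendsto_const_nhds.add
      ((tendsto_const_nhds.div_atTop (tendsto_pow_atTop two_ne_zero)).mul_const _)
  rw [zero_mul, add_zero] at hlim
  exact ge_of_tendsto hlim ((eventually_gt_atTop 0).mono hr)

/-- BE1 (b): estimate with the slope at scale `r`. -/
theorem be_one_G (hS : Std m K N) {f : X → ℝ} (hf : LipC f) {t r : ℝ} (ht : 0 ≤ t) (hr : 0 < r) :
    ∀ᵐ x ∂m, weakGradient m (heatF m t f) x ^ 2 ≤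
      Real.exp (-2 * K * t) * heatF m t (fun z => be_G f r z ^ 2) x := by
  obtain ⟨⟨L, hL⟩, hc⟩ := id hf
  obtain ⟨S, hS0, hSb⟩ := be_lipC_bdd hf
  obtain ⟨g, hg, hgu⟩ := be_one_lip hS hL hc ht
  have hsl := be_slope_of_avg hS (u := heatF m t f) (v := heatF m t (fun z => be_G f r z ^ 2))
    (g := g) (a := Real.exp (-K * t)) (c := 2 * S / r ^ 2 * Real.exp (-2 * K * t))
    (by positivity) (by positivity) (be_locInt_of_memLp hS (be_heat_memLp t f))
    (be_locInt_of_memLp hS (be_heat_memLp t _)) hg.continuous hgu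
    (fun x y ϱ hϱ => be_kuwada_avg hS hf (c := 2 * S / r ^ 2) (by positivity) (be_G_measurable hL r)
      (be_G_nonneg f r) (be_G_sq_memLp hS hf r) (be_G_spec hL hSb hr) x y hϱ ht)
  have hwg := (be_need_lipschitz hS hg).2
  rw [be_need_wg_congr hgu] at hwg
  have hv0 := be_need_heat_nonneg hS (be_G_sq_memLp hS hf r)
    (Eventually.of_forall fun z => by positivity) t
  filter_upwards [hsl, hwg, hv0, be_need_wg_nonneg (m := m) (heatF m t f)] with x h1 h2 h3 h4
  have h5 : weakGradient m (heatF m t f) x ≤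
      Real.exp (-K * t) * Real.sqrt (heatF m t (fun z => be_G f r z ^ 2) x) :=
    (ENNReal.ofReal_le_ofReal_iff (by positivity)).1 (h2.trans h1)
  calc weakGradient m (heatF m t f) x ^ 2
      ≤ (Real.exp (-K * t) * Real.sqrt (heatF m t (fun z => be_G f r z ^ 2) x)) ^ 2 :=
        pow_le_pow_left₀ h4 h5 2
    _ = Real.exp (-2 * K * t) * heatF m t (fun z => be_G f r z ^ 2) x := by
        rw [mul_pow, Real.sq_sqrt h3, ← Real.exp_nat_mul]
        congr 2
        push_cast; ring

/-- dominated convergence for `∫ G_n² H`, `H ∈ L²`. -/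
theorem be_one_G_tendsto (hS : Std m K N) {f H : X → ℝ} (hf : LipC f) (hH : MemLp H 2 m) :
    Tendsto (fun n : ℕ => ∫ x, be_G f (1 / ((n : ℝ) + 1)) x ^ 2 * H x ∂m) atTop
      (𝓝 (∫ x, be_slope f x ^ 2 * H x ∂m)) := by
  obtain ⟨⟨L, hL⟩, hc⟩ := id hf
  by_cases hne : Nonempty X
  swap
  · haveI : IsEmpty X := not_nonempty_iff.mp hne
    have hm : m = 0 := Measure.eq_zero_of_isEmpty m
    simp [hm]
  obtain ⟨o⟩ := hne
  obtain ⟨R, hR, hsupp⟩ := be_lipC_supp hf o
  set s : Set X := Metric.closedBall o (R + 1) with hs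
  have hsm : MeasurableSet s := measurableSet_closedBall
  have hsfin : m s < ∞ := hS.finite _ Metric.isBounded_closedBall
  haveI : IsFiniteMeasure (m.restrict s) := ⟨by rw [Measure.restrict_apply_univ]; exact hsfin⟩
  have hHs : IntegrableOn H s m := (hH.restrict s).integrable one_le_two
  refine tendsto_integral_of_dominated_convergence
    (s.indicator (fun x => (L : ℝ) ^ 2 * |H x|)) (fun n => ?_) ?_ (fun n => ?_) ?_
  · exact (((be_G_measurable hL _).pow_const 2).aestronglyMeasurable).mul hH.1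
  · rw [integrable_indicator_iff hsm]
    exact (hHs.abs).const_mul _
  · refine Filter.Eventually.of_forall (fun x => ?_)
    have hr : (0 : ℝ) < 1 / ((n : ℝ) + 1) := by positivity
    have hr1 : 1 / ((n : ℝ) + 1) ≤ 1 := by
      rw [div_le_one (by positivity)]
      have : (0 : ℝ) ≤ n := Nat.cast_nonneg n
      linarith
    by_cases hx : x ∈ s
    · rw [Set.indicator_of_mem hx, Real.norm_eq_abs, abs_mul, abs_of_nonneg (sq_nonneg _)]
      have h1 := be_G_le hL (1 / ((n : ℝ) + 1)) x
      have h0 := be_G_nonneg f (1 / ((n : ℝ) + 1)) x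
      gcongr
    · rw [Set.indicator_of_notMem hx]
      have hx' : R + 1 < dist x o := by
        rw [hs, Metric.mem_closedBall, not_le] at hx
        exact hx
      have : be_G f (1 / ((n : ℝ) + 1)) x = 0 := be_G_eq_zero hsupp (by linarith)
      rw [this]
      simp
  · refine Filter.Eventually.of_forall (fun x => ?_)
    exact ((be_G_tendsto hL x).pow 2).mul_const _

/-- BE1 (c): weak form with the local slope. -/
theorem be_one_weak (hS : Std m K N) {f h : X → ℝ} (hf : LipC f) (hh : MemLp h 2 m)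
    (h0 : ∀ᵐ x ∂m, 0 ≤ h x) {t : ℝ} (ht : 0 ≤ t) :
    ∫ x, weakGradient m (heatF m t f) x ^ 2 * h x ∂m ≤
      Real.exp (-2 * K * t) * ∫ x, be_slope f x ^ 2 * heatF m t h x ∂m := by
  by_cases hint : Integrable (fun x => weakGradient m (heatF m t f) x ^ 2 * h x) m
  swap
  · rw [integral_undef hint]
    refine mul_nonneg (Real.exp_pos _).le (integral_nonneg_of_ae ?_)
    filter_upwards [be_need_heat_nonneg hS hh h0 t] with x hx
    exact mul_nonneg (sq_nonneg _) hx
  have hH : MemLp (heatF m t h) 2 m := be_heat_memLp t h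
  refine ge_of_tendsto' ((be_one_G_tendsto hS hf hH).const_mul (Real.exp (-2 * K * t))) (fun n => ?_)
  have hr : (0 : ℝ) < 1 / ((n : ℝ) + 1) := by positivity
  have hG2 : MemLp (fun x => be_G f (1 / ((n : ℝ) + 1)) x ^ 2) 2 m := be_G_sq_memLp hS hf _
  rw [← be_need_heat_symm hS hG2 hh t, ← integral_const_mul]
  refine integral_mono_ae hint ?_ ?_
  · exact ((be_heat_memLp t _).integrable_mul hh).const_mul _
  · filter_upwards [be_one_G hS hf ht hr, h0] with x hx hx0
    calc weakGradient m (heatF m t f) x ^ 2 * h x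
        ≤ (Real.exp (-2 * K * t) * heatF m t (fun z => be_G f (1 / ((n : ℝ) + 1)) z ^ 2) x) * h x :=
          mul_le_mul_of_nonneg_right hx hx0
      _ = _ := by ring

/-- BE1 (d): a.e. form with the local slope. -/
theorem be_one_ae (hS : Std m K N) {f : X → ℝ} (hf : LipC f) {t : ℝ} (ht : 0 ≤ t) :
    ∀ᵐ x ∂m, weakGradient m (heatF m t f) x ^ 2 ≤
      Real.exp (-2 * K * t) * heatF m t (fun z => be_slope f z ^ 2) x := by
  have hu : Sobolev m (heatF m t f) := be_heat_sobolev hS (be_need_lipC_sobolev hS hf) ht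
  refine be_ae_le_of_setIntegral hS (fun s _ _ => ?_) (fun s _ hs => ?_) (fun s hsm hs => ?_)
  · exact (hu.2.2.integrable_sq).integrableOn
  · haveI : IsFiniteMeasure (m.restrict s) := ⟨by rw [Measure.restrict_apply_univ]; exact hs⟩
    exact (((be_heat_memLp t _).restrict s).integrable one_le_two).const_mul _
  · have hind : MemLp (s.indicator (fun _ => (1 : ℝ))) 2 m :=
      memLp_indicator_const 2 hsm 1 (Or.inr hs.ne)
    have h0 : ∀ᵐ x ∂m, 0 ≤ s.indicator (fun _ => (1 : ℝ)) x :=
      Filter.Eventually.of_forall (fun x => Set.indicator_nonneg (fun _ _ => zero_le_one) x)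
    have key := be_one_weak hS hf hind h0 ht
    rw [← be_need_heat_symm hS (be_slope_sq_memLp hS hf 2) hind t] at key
    have e : ∀ g : X → ℝ, (fun x => g x * s.indicator (fun _ => (1 : ℝ)) x) = s.indicator g := by
      intro g
      funext x
      by_cases hx : x ∈ s <;> simp [hx]
    rw [e, e, integral_indicator hsm, integral_indicator hsm] at key
    rw [integral_const_mul]
    exact key

end Claimed.Agent.R210.BE.One
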