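/-
Row 210 (S0432), layer BE.  BE2: the weak Bakry-Emery gradient estimate for Sobolev functions.
-/
import Claimed.Agent.R210.BE.One

set_option autoImplicit false

open Claims.C0366 Claims.C0366.WeakHessian
open Set Filter MeasureTheory
open scoped ENNReal NNReal Topology

namespace Claimed.Agent.R210.BE.Two

open Claimed.Agent.R210.Defs Claimed.Agent.R210.Defs2 Claimed.Agent.R210.BE.Defs
  Claimed.Agent.R210.BE.Need Claimed.Agent.R210.BE.Ball Claimed.Agent.R210.BE.GFun
  Claimed.Agent.R210.BE.One Claimed.Agent.R210.BE.Heat Claimed.Agent.R210.BE.Leb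

/-- Hölder `2,2,1` in real form. -/
theorem be_holder22 {α : Type*} [MeasurableSpace α] {μ : Measure α} {u v : α → ℝ}
    (hu : MemLp u 2 μ) (hv : MemLp v 2 μ) :
    ∫ x, |u x * v x| ∂μ ≤ (eLpNorm u 2 μ).toReal * (eLpNorm v 2 μ).toReal := by
  have h1 : eLpNorm (u • v) 1 μ ≤ eLpNorm u 2 μ * eLpNorm v 2 μ :=
    eLpNorm_smul_le_mul_eLpNorm hv.1 hu.1
  have h2 : ∫ x, |u x * v x| ∂μ = (eLpNorm (u • v) 1 μ).toReal := by
    rw [eLpNorm_one_eq_lintegral_enorm]
    rw [← integral_norm_eq_lintegral_enorm (hu.1.smul hv.1)]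
    rfl
  rw [h2, ← ENNReal.toReal_mul]
  exact ENNReal.toReal_mono (ENNReal.mul_ne_top hu.2.ne hv.2.ne) h1

/-- Pure measure theory: `D_n → D` in `L²`, `h` bounded `⟹ ∫ D_n² h → ∫ D² h`. -/
theorem be_sq_conv {α : Type*} [MeasurableSpace α] {μ : Measure α} {D h : α → ℝ}
    {Ds : ℕ → α → ℝ} {B : ℝ} (hD : MemLp D 2 μ) (hDs : ∀ n, MemLp (Ds n) 2 μ)
    (hconv : Tendsto (fun n => eLpNorm (fun x => Ds n x - D x) 2 μ) atTop (𝓝 0))
    (hhm : AEStronglyMeasurable h μ) (hB : ∀ᵐ x ∂μ, |h x| ≤ B) :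
    Tendsto (fun n => ∫ x, Ds n x ^ 2 * h x ∂μ) atTop (𝓝 (∫ x, D x ^ 2 * h x ∂μ)) := by
  -- norms
  set e : ℕ → ℝ := fun n => (eLpNorm (fun x => Ds n x - D x) 2 μ).toReal with he
  have he0 : Tendsto e atTop (𝓝 0) := by
    have := (ENNReal.tendsto_toReal (ENNReal.zero_ne_top)).comp hconv
    simpa [he, Function.comp_def] using this
  set d : ℝ := (eLpNorm D 2 μ).toReal with hd
  have hsub : ∀ n, MemLp (fun x => Ds n x - D x) 2 μ := fun n => (hDs n).sub hD
  have hadd : ∀ n, MemLp (fun x => Ds n x + D x) 2 μ := fun n => (hDs n).add hD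
  have hint : ∀ {u v : α → ℝ}, MemLp u 2 μ → MemLp v 2 μ →
      Integrable (fun x => u x * v x * h x) μ := by
    intro u v hu hv
    have h1 : Integrable (fun x => u x * v x) μ := hu.integrable_mul hv
    exact h1.mul_bdd (c := B) hhm (by simpa [Real.norm_eq_abs] using hB)
  have hbound : ∀ n, |∫ x, Ds n x ^ 2 * h x ∂μ - ∫ x, D x ^ 2 * h x ∂μ|
      ≤ |B| * (e n * (e n + 2 * d)) := by
    intro n
    have i1 : Integrable (fun x => Ds n x ^ 2 * h x) μ := by
      simpa [pow_two] using hint (hDs n) (hDs n)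
    have i2 : Integrable (fun x => D x ^ 2 * h x) μ := by
      simpa [pow_two] using hint hD hD
    rw [← integral_sub i1 i2]
    have i3 : Integrable (fun x => |(Ds n x - D x) * (Ds n x + D x)|) μ :=
      ((hsub n).integrable_mul (hadd n)).abs
    calc |∫ x, (Ds n x ^ 2 * h x - D x ^ 2 * h x) ∂μ|
        ≤ ∫ x, |Ds n x ^ 2 * h x - D x ^ 2 * h x| ∂μ := abs_integral_le_integral_abs
      _ ≤ ∫ x, |B| * |(Ds n x - D x) * (Ds n x + D x)| ∂μ := by
          refine integral_mono_ae (i1.sub i2).abs (i3.const_mul _) ?_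
          filter_upwards [hB] with x hx
          have : Ds n x ^ 2 * h x - D x ^ 2 * h x = h x * ((Ds n x - D x) * (Ds n x + D x)) := by
            ring
          simp only [this]
          rw [abs_mul]
          exact mul_le_mul_of_nonneg_right (hx.trans (le_abs_self B)) (abs_nonneg _)
      _ = |B| * ∫ x, |(Ds n x - D x) * (Ds n x + D x)| ∂μ := integral_const_mul _ _
      _ ≤ |B| * (e n * (eLpNorm (fun x => Ds n x + D x) 2 μ).toReal) :=
          mul_le_mul_of_nonneg_left (be_holder22 (hsub n) (hadd n)) (abs_nonneg _)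
      _ ≤ |B| * (e n * (e n + 2 * d)) := by
          refine mul_le_mul_of_nonneg_left (mul_le_mul_of_nonneg_left ?_ ENNReal.toReal_nonneg)
            (abs_nonneg _)
          have hEq : (fun x => Ds n x + D x) = (fun x => Ds n x - D x) + ((2 : ℝ) • D) := by
            funext x; simp; ring
          have h3 : eLpNorm (fun x => Ds n x + D x) 2 μ
              ≤ eLpNorm (fun x => Ds n x - D x) 2 μ + eLpNorm ((2 : ℝ) • D) 2 μ := by
            rw [hEq]
            exact eLpNorm_add_le (hsub n).1 (hD.1.const_smul _) (by norm_num)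
          have h4 : eLpNorm ((2 : ℝ) • D) 2 μ = 2 * eLpNorm D 2 μ := by
            rw [eLpNorm_const_smul]
            simp [enorm_eq_nnnorm]
          rw [h4] at h3
          have h5 := ENNReal.toReal_mono
            (ENNReal.add_ne_top.2 ⟨(hsub n).2.ne, ENNReal.mul_ne_top (by simp) hD.2.ne⟩) h3
          rw [ENNReal.toReal_add (hsub n).2.ne (ENNReal.mul_ne_top (by simp) hD.2.ne),
            ENNReal.toReal_mul] at h5
          simpa [he, hd] using h5
  rw [tendsto_iff_dist_tendsto_zero]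
  have hlim : Tendsto (fun n => |B| * (e n * (e n + 2 * d))) atTop (𝓝 0) := by
    have : Tendsto (fun n => |B| * (e n * (e n + 2 * d))) atTop (𝓝 (|B| * (0 * (0 + 2 * d)))) :=
      (he0.mul (he0.add_const _)).const_mul _
    simpa using this
  refine squeeze_zero (fun n => dist_nonneg) (fun n => ?_) hlim
  rw [Real.dist_eq]
  exact hbound n

/-- the `L²` norm through the integral of the square. -/
theorem be_eLpNorm_two_eq {α : Type*} [MeasurableSpace α] {μ : Measure α} {g : α → ℝ} (hg : MemLp g 2 μ) :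
    eLpNorm g 2 μ = ENNReal.ofReal (Real.sqrt (∫ x, g x ^ 2 ∂μ)) := by
  rw [hg.eLpNorm_eq_integral_rpow_norm (by norm_num) (by norm_num)]
  congr 1
  rw [Real.sqrt_eq_rpow]
  have e : ∀ a, ‖g a‖ ^ (2 : ℝ≥0∞).toReal = g a ^ 2 := by
    intro a
    rw [ENNReal.toReal_ofNat, Real.rpow_two, Real.norm_eq_abs, sq_abs]
  simp only [e]
  congr 1
  rw [ENNReal.toReal_ofNat]
  norm_num

variable {X : Type*} [MetricSpace X] [MeasurableSpace X] [BorelSpace X]
  [CompleteSpace X] [TopologicalSpace.SeparableSpace X] [ProperSpace X]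
variable {m : Measure X} {K N : ℝ}

/-- `f_n → f` in `L²`, `t > 0` `⟹ |D H_t f_n| → |D H_t f|` in `L²`. -/
theorem be_heat_grad_conv (hS : Std m K N) {f : X → ℝ} {fs : ℕ → X → ℝ} (hf : MemLp f 2 m)
    (hfs : ∀ n, MemLp (fs n) 2 m)
    (hconv : Tendsto (fun n => eLpNorm (fun x => fs n x - f x) 2 m) atTop (𝓝 0))
    {t : ℝ} (ht : 0 < t) :
    Tendsto (fun n => eLpNorm (fun x => weakGradient m (heatF m t (fs n)) x -
      weakGradient m (heatF m t f) x) 2 m) atTop (𝓝 0) := by
  have hu := (be_need_heat_energy hS hf ht).1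
  have hbound : ∀ n, eLpNorm (fun x => weakGradient m (heatF m t (fs n)) x -
      weakGradient m (heatF m t f) x) 2 m
        ≤ ENNReal.ofReal (Real.sqrt t)⁻¹ * eLpNorm (fun x => fs n x - f x) 2 m := by
    intro n
    have hd : MemLp (fun x => fs n x - f x) 2 m := (hfs n).sub hf
    have hun := (be_need_heat_energy hS (hfs n) ht).1
    have hw := be_need_heat_energy hS hd ht
    have e1 : weakGradient m (fun y => heatF m t (fs n) y - heatF m t f y)
        = weakGradient m (heatF m t (fun x => fs n x - f x)) :=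
      be_need_wg_congr (be_need_heat_sub hS (hfs n) hf t).symm
    have h1 : eLpNorm (fun x => weakGradient m (heatF m t (fs n)) x -
        weakGradient m (heatF m t f) x) 2 m
          ≤ eLpNorm (weakGradient m (heatF m t (fun x => fs n x - f x))) 2 m := by
      apply eLpNorm_mono_ae
      filter_upwards [(be_need_wg_sub hS hun hu).2] with x hx
      rw [e1] at hx
      rw [Real.norm_eq_abs, Real.norm_eq_abs]
      exact hx.trans (le_abs_self _)
    refine h1.trans ?_
    rw [be_eLpNorm_two_eq hw.1.2.2, be_eLpNorm_two_eq hd,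
      ← ENNReal.ofReal_mul (inv_nonneg.2 (Real.sqrt_nonneg t))]
    apply ENNReal.ofReal_le_ofReal
    have h2 : ∫ x, weakGradient m (heatF m t (fun x => fs n x - f x)) x ^ 2 ∂m
        ≤ (∫ x, (fs n x - f x) ^ 2 ∂m) / t := hw.2
    calc Real.sqrt (∫ x, weakGradient m (heatF m t (fun x => fs n x - f x)) x ^ 2 ∂m)
        ≤ Real.sqrt ((∫ x, (fs n x - f x) ^ 2 ∂m) / t) := Real.sqrt_le_sqrt h2
      _ = (Real.sqrt t)⁻¹ * Real.sqrt (∫ x, (fs n x - f x) ^ 2 ∂m) := by
          rw [Real.sqrt_div' _ ht.le, div_eq_inv_mul]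
  have hlim : Tendsto (fun n => ENNReal.ofReal (Real.sqrt t)⁻¹ * eLpNorm (fun x => fs n x - f x) 2 m)
      atTop (𝓝 0) := by
    have := ENNReal.Tendsto.const_mul (a := ENNReal.ofReal (Real.sqrt t)⁻¹) hconv
      (Or.inr ENNReal.ofReal_ne_top)
    simpa using this
  exact tendsto_of_tendsto_of_tendsto_of_le_of_le tendsto_const_nhds hlim (fun _ => bot_le) hbound

/-- **BE2**. -/
theorem be_two (hS : Std m K N) {f h : X → ℝ} {B : ℝ} (hf : Sobolev m f) (hh : MemLp h 2 m)
    (hB : AEBdd m h B) (h0 : ∀ᵐ x ∂m, 0 ≤ h x) {t : ℝ} (ht : 0 ≤ t) :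
    ∫ x, weakGradient m (heatF m t f) x ^ 2 * h x ∂m ≤
      Real.exp (-2 * K * t) * ∫ x, weakGradient m f x ^ 2 * heatF m t h x ∂m := by
  rcases ht.eq_or_lt with rfl | ht0
  · rw [be_need_wg_congr (be_heat_zero hf.1), mul_zero, Real.exp_zero, one_mul]
    apply le_of_eq
    apply integral_congr_ae
    filter_upwards [be_heat_zero hh] with x hx
    rw [hx]
  · obtain ⟨fs, hL, hc1, hc2⟩ := be_need_approx hS hf
    have hfs : ∀ n, MemLp (fs n) 2 m := fun n => (be_need_lipC_sobolev hS (hL n)).1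
    have l1 : Tendsto (fun n => ∫ x, weakGradient m (heatF m t (fs n)) x ^ 2 * h x ∂m) atTop
        (𝓝 (∫ x, weakGradient m (heatF m t f) x ^ 2 * h x ∂m)) :=
      be_sq_conv (be_need_heat_energy hS hf.1 ht0).1.2.2
        (fun n => (be_need_heat_energy hS (hfs n) ht0).1.2.2)
        (be_heat_grad_conv hS hf.1 hfs hc1 ht0) hh.1 hB
    have l2 : Tendsto (fun n => ∫ x, be_slope (fs n) x ^ 2 * heatF m t h x ∂m) atTop
        (𝓝 (∫ x, weakGradient m f x ^ 2 * heatF m t h x ∂m)) :=
      be_sq_conv hf.2.2 (fun n => be_slope_memLp hS (hL n) 2) hc2 (be_heat_memLp t h).1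
        (be_need_heat_bdd hS hh hB t)
    exact le_of_tendsto_of_tendsto' l1 (l2.const_mul (Real.exp (-2 * K * t)))
      (fun n => be_one_weak hS (hL n) hh h0 ht0.le)

/-- a.e. consequence: `|Df| ≤ L` a.e. `⟹ |D H_t f| ≤ e^{-Kt} L` a.e. -/
theorem be_two_bdd (hS : Std m K N) {f : X → ℝ} {L : ℝ} (hf : Sobolev m f)
    (hL : ∀ᵐ x ∂m, weakGradient m f x ≤ L) {t : ℝ} (ht : 0 ≤ t) :
    ∀ᵐ x ∂m, weakGradient m (heatF m t f) x ≤ Real.exp (-K * t) * L := by
  rcases lt_or_ge L 0 with hL0 | hL0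
  · filter_upwards [hL, be_need_wg_nonneg (m := m) f] with x h1 h2
    exact absurd (h2.trans h1) (not_le.2 hL0)
  have hHs : Sobolev m (heatF m t f) := be_heat_sobolev hS hf ht
  have hint1 : Integrable (fun x => weakGradient m (heatF m t f) x ^ 2) m := hHs.2.2.integrable_sq
  have hint0 : Integrable (fun x => weakGradient m f x ^ 2) m := hf.2.2.integrable_sq
  have key : ∀ᵐ x ∂m, weakGradient m (heatF m t f) x ^ 2 ≤ Real.exp (-2 * K * t) * L ^ 2 := by
    refine be_ae_le_of_setIntegral hS (a := fun x => weakGradient m (heatF m t f) x ^ 2)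
      (b := fun _ => Real.exp (-2 * K * t) * L ^ 2) (fun s _ _ => hint1.integrableOn)
      (fun s _ hs => integrableOn_const hs.ne) ?_
    intro s hsm hs
    set h : X → ℝ := s.indicator (fun _ => (1 : ℝ)) with hh
    have hh2 : MemLp h 2 m := memLp_indicator_const 2 hsm 1 (Or.inr hs.ne)
    have hh1 : Integrable h m := (integrable_indicator_iff hsm).2 (integrableOn_const hs.ne)
    have hhB : AEBdd m h 1 := Eventually.of_forall fun x => by
      simp only [hh, Set.indicator]
      split_ifs <;> simp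
    have hh0 : ∀ᵐ x ∂m, 0 ≤ h x :=
      Eventually.of_forall fun x => Set.indicator_nonneg (fun _ _ => zero_le_one) x
    have h2 := be_two hS hf hh2 hhB hh0 ht
    have e1 : ∫ x, weakGradient m (heatF m t f) x ^ 2 * h x ∂m
        = ∫ x in s, weakGradient m (heatF m t f) x ^ 2 ∂m := by
      rw [← integral_indicator hsm]
      congr 1
      funext x
      simp only [hh, Set.indicator]
      split_ifs <;> simp
    have hH0 := be_need_heat_nonneg hS hh2 hh0 t
    have hHB : ∀ᵐ x ∂m, |heatF m t h x| ≤ 1 := be_need_heat_bdd hS hh2 hhB t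
    obtain ⟨hHint, hHle⟩ := be_need_heat_L1 hS hh2 hh1 hh0 t
    have e2 : ∫ x, weakGradient m f x ^ 2 * heatF m t h x ∂m ≤ ∫ x, L ^ 2 * heatF m t h x ∂m := by
      refine integral_mono_ae ?_ (hHint.const_mul _) ?_
      · refine Integrable.mono' hint0
          (hint0.aestronglyMeasurable.mul (be_heat_memLp t h).aestronglyMeasurable) ?_
        filter_upwards [hHB] with x hx
        rw [Real.norm_eq_abs, abs_mul, abs_of_nonneg (sq_nonneg _)]
        exact mul_le_of_le_one_right (sq_nonneg _) hx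
      · filter_upwards [hL, be_need_wg_nonneg (m := m) f, hH0] with x a1 a2 a3
        exact mul_le_mul_of_nonneg_right (pow_le_pow_left₀ a2 a1 2) a3
    have e3 : ∫ x, h x ∂m = (m s).toReal := by
      rw [hh, integral_indicator hsm]
      simp [Measure.real]
    have e4 : ∫ x in s, Real.exp (-2 * K * t) * L ^ 2 ∂m = Real.exp (-2 * K * t) * (L ^ 2 * (m s).toReal) := by
      simp [Measure.real]
      ring
    rw [e4, ← e1]
    refine h2.trans (mul_le_mul_of_nonneg_left ?_ (Real.exp_pos _).le)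
    refine e2.trans ?_
    rw [integral_const_mul]
    refine mul_le_mul_of_nonneg_left ?_ (sq_nonneg _)
    rw [← e3]
    exact hHle
  filter_upwards [key, be_need_wg_nonneg (m := m) (heatF m t f)] with x h1 h2
  have e5 : Real.exp (-2 * K * t) * L ^ 2 = (Real.exp (-K * t) * L) ^ 2 := by
    rw [mul_pow, sq (Real.exp (-K * t)), ← Real.exp_add]
    congr 2
    ring
  rw [e5] at h1
  exact (pow_le_pow_iff_left₀ h2 (mul_nonneg (Real.exp_pos _).le hL0) two_ne_zero).1 h1

end Claimed.Agent.R210.BE.Two
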