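/-
Row 210 (S0432), layer BE.  BE4: the reverse Poincare type inequality and the `L^∞`-to-Lipschitz
regularisation of the heat flow.
-/
import Claimed.Agent.R210.BE.Two
import Claimed.Agent.R210.BE.Three
import Claimed.Agent.R210.BE.Tri

set_option autoImplicit false

open Claims.C0366 Claims.C0366.WeakHessian
open Set Filter MeasureTheory
open scoped ENNReal NNReal Topology

namespace Claimed.Agent.R210.BE.Four

open Claimed.Agent.R210.BE.Heat Claimed.Agent.R210.Defs Claimed.Agent.R210.Defs2 Claimed.Agent.R210.HS.Defs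
  Claimed.Agent.R210.BE.Defs
  Claimed.Agent.R210.BE.Need Claimed.Agent.R210.BE.Ball Claimed.Agent.R210.BE.Leb
  Claimed.Agent.R210.BE.Two Claimed.Agent.R210.BE.Three Claimed.Agent.R210.BE.Tri

variable {X : Type*} [MetricSpace X] [MeasurableSpace X] [BorelSpace X]
  [CompleteSpace X] [TopologicalSpace.SeparableSpace X] [ProperSpace X]
variable {m : Measure X} {K N : ℝ}

/-- `-2 ∫ u Δu k + ∫ u² Δk = 2 ∫ |Du|² k`. -/
theorem be_gamma_identity (hS : Std m K N) {u k Lu Lk : X → ℝ} {B B' : ℝ}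
    (hu : IsLaplacian m u Lu) (hk : IsLaplacian m k Lk) (huB : AEBdd m u B)
    (hkB : AEBdd m k B') :
    -2 * ∫ x, u x * Lu x * k x ∂m + ∫ x, u x ^ 2 * Lk x ∂m =
      2 * ∫ x, weakGradient m u x ^ 2 * k x ∂m := by
  obtain ⟨hSu, -, hTu⟩ := hu
  obtain ⟨hSk, -, hTk⟩ := hk
  have T1 := hTu _ (be_need_mul_sobolev hS hSu hSk huB hkB)
  have T2 := hTk _ (be_need_mul_sobolev hS hSu hSu huB huB)
  have L1 := be_need_leibniz hS hSu hSu hSk huB hkB
  have L2 := be_need_leibniz hS hSk hSu hSu huB huB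
  have hsy := be_need_gamma_symm hS hSk hSu
  have hse := be_need_gamma_self hS hSu.2.1
  have i1 : Integrable (fun x => u x * gamma m u k x) m :=
    (be_need_gamma_integrable hS hSu hSk).bdd_mul hSu.1.aestronglyMeasurable
      (by simpa [AEBdd, Real.norm_eq_abs] using huB)
  have i2 : Integrable (fun x => k x * gamma m u u x) m :=
    (be_need_gamma_integrable hS hSu hSu).bdd_mul hSk.1.aestronglyMeasurable
      (by simpa [AEBdd, Real.norm_eq_abs] using hkB)
  have E1 : ∫ x, gamma m u (fun y => u y * k y) x ∂m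
      = ∫ x, u x * gamma m u k x ∂m + ∫ x, k x * gamma m u u x ∂m := by
    rw [← integral_add i1 i2]
    exact integral_congr_ae L1
  have E2 : ∫ x, gamma m k (fun y => u y * u y) x ∂m
      = ∫ x, u x * gamma m u k x ∂m + ∫ x, u x * gamma m u k x ∂m := by
    rw [← integral_add i1 i1]
    refine integral_congr_ae ?_
    filter_upwards [L2, hsy] with x h1 h2
    rw [h1, h2]
  have E3 : ∫ x, k x * gamma m u u x ∂m = ∫ x, weakGradient m u x ^ 2 * k x ∂m := by
    refine integral_congr_ae ?_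
    filter_upwards [hse] with x h1
    rw [h1, mul_comm]
  have F1 : ∫ x, u x * Lu x * k x ∂m = ∫ x, Lu x * (u x * k x) ∂m :=
    integral_congr_ae (Eventually.of_forall (fun x => by ring))
  have F2 : ∫ x, u x ^ 2 * Lk x ∂m = ∫ x, Lk x * (u x * u x) ∂m :=
    integral_congr_ae (Eventually.of_forall (fun x => by ring))
  rw [F1, F2, ← E3]
  linarith

/-- elementary facts on `be_I` -/
theorem be_I_hasDerivAt {K : ℝ} (hK : K < 0) (s : ℝ) :
    HasDerivAt (be_I K) (Real.exp (2 * K * s)) s := by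
  have h1 : HasDerivAt (fun r : ℝ => 2 * K * r) (2 * K) s := by
    simpa using (hasDerivAt_id s).const_mul (2 * K)
  have h2 : HasDerivAt (fun r : ℝ => (Real.exp (2 * K * r) - 1) / (2 * K))
      ((Real.exp (2 * K * s) * (2 * K)) / (2 * K)) s := (h1.exp.sub_const 1).div_const (2 * K)
  have hK2 : (2 * K) ≠ 0 := by
    have : 2 * K < 0 := by linarith
    exact this.ne
  rw [mul_div_assoc, div_self hK2, mul_one] at h2
  exact h2

theorem be_I_zero (K : ℝ) : be_I K 0 = 0 := by
  simp [be_I]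

theorem be_I_pos {K t : ℝ} (hK : K < 0) (ht : 0 < t) : 0 < be_I K t := by
  unfold be_I
  have h1 : 2 * K * t < 0 := by nlinarith
  have h2 : Real.exp (2 * K * t) - 1 < 0 := by
    have := Real.exp_lt_exp.2 h1
    rw [Real.exp_zero] at this
    linarith
  exact div_pos_of_neg_of_neg h2 (by linarith)

/-- The function `Φ(s) = ∫ (H_{t-s} f)² H_s h`. -/
noncomputable def be_Phi (m : Measure X) (f h : X → ℝ) (t s : ℝ) : ℝ :=
  ∫ x, heatF m (t - s) f x ^ 2 * heatF m s h x ∂m

theorem be_Phi_eq {f h : X → ℝ} (hf : MemLp f 2 m) (hh : MemLp h 2 m) (t : ℝ) :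
    be_Phi m f h t = fun r => ∫ x, ((flow (ChL2 m) (t - r) (hf.toLp f) : Lp ℝ 2 m) x) ^ 2 *
      (flow (ChL2 m) r (hh.toLp h) : Lp ℝ 2 m) x ∂m := by
  funext r
  rw [be_Phi, be_heat_coe hf, be_heat_coe hh]

theorem be_Phi_continuous (hS : Std m K N) {f h : X → ℝ} {B B' : ℝ} (hf : MemLp f 2 m)
    (hfB : AEBdd m f B) (hh : MemLp h 2 m) (hhB : AEBdd m h B') (t : ℝ) :
    Continuous (be_Phi m f h t) := by
  rw [be_Phi_eq hf hh t]
  refine be_tri_continuous (B := B) (B' := B')
    (U := fun r => flow (ChL2 m) (t - r) (hf.toLp f)) (V := fun r => flow (ChL2 m) r (hh.toLp h))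
    ((be_need_flow_continuous hS (hf.toLp f)).comp (continuous_const.sub continuous_id))
    (be_need_flow_continuous hS (hh.toLp h)) ?_ ?_
  · intro r
    have := be_need_heat_bdd hS hf hfB (t - r)
    rw [be_heat_coe hf] at this
    exact this
  · intro r
    have := be_need_heat_bdd hS hh hhB r
    rw [be_heat_coe hh] at this
    exact this

theorem be_Phi_hasDerivAt (hS : Std m K N) {f h : X → ℝ} {B B' : ℝ} (hf : MemLp f 2 m)
    (hfB : AEBdd m f B) (hh : MemLp h 2 m) (hhB : AEBdd m h B') {t s : ℝ} (hs : 0 < s)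
    (hst : s < t) :
    HasDerivAt (be_Phi m f h t)
      (2 * ∫ x, weakGradient m (heatF m (t - s) f) x ^ 2 * heatF m s h x ∂m) s := by
  obtain ⟨Wu, hWu, hLu⟩ := be_need_flow_deriv hS (hf.toLp f) (s := t - s) (by linarith)
  obtain ⟨Wk, hWk, hLk⟩ := be_need_flow_deriv hS (hh.toLp h) hs
  have hU : HasDerivAt (fun r => flow (ChL2 m) (t - r) (hf.toLp f)) (-Wu) s := by
    have h1 : HasDerivAt (fun r : ℝ => t - r) (-1) s := by
      simpa using (hasDerivAt_id s).const_sub t
    have h2 := HasDerivAt.scomp s hWu h1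
    rw [neg_one_smul] at h2
    exact h2
  have hUB : ∀ r, ∀ᵐ x ∂m, |(flow (ChL2 m) (t - r) (hf.toLp f) : Lp ℝ 2 m) x| ≤ B := by
    intro r
    have := be_need_heat_bdd hS hf hfB (t - r)
    rw [be_heat_coe hf] at this
    exact this
  have hVB : ∀ r, ∀ᵐ x ∂m, |(flow (ChL2 m) r (hh.toLp h) : Lp ℝ 2 m) x| ≤ B' := by
    intro r
    have := be_need_heat_bdd hS hh hhB r
    rw [be_heat_coe hh] at this
    exact this
  have key := be_tri_hasDerivAt hU hWk hUB hVB
  rw [be_Phi_eq hf hh t, be_heat_coe hf, be_heat_coe hh]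
  convert key using 1
  rw [← be_gamma_identity hS hLu hLk (hUB s) (hVB s)]
  congr 1
  have : ∫ x, (flow (ChL2 m) (t - s) (hf.toLp f) : Lp ℝ 2 m) x * (-Wu : Lp ℝ 2 m) x *
        (flow (ChL2 m) s (hh.toLp h) : Lp ℝ 2 m) x ∂m
      = - ∫ x, (flow (ChL2 m) (t - s) (hf.toLp f) : Lp ℝ 2 m) x * Wu x *
        (flow (ChL2 m) s (hh.toLp h) : Lp ℝ 2 m) x ∂m := by
    rw [← integral_neg]
    apply integral_congr_ae
    filter_upwards [Lp.coeFn_neg Wu] with x hx
    rw [hx]
    simp
  rw [this]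
  ring

/-- **BE4**. -/
theorem be_four (hS : Std m K N) {f h : X → ℝ} {B B' : ℝ} (hf : MemLp f 2 m)
    (hfB : AEBdd m f B) (hh : MemLp h 2 m) (hhB : AEBdd m h B') (h0 : ∀ᵐ x ∂m, 0 ≤ h x)
    {t : ℝ} (ht : 0 < t) :
    2 * be_I K t * ∫ x, weakGradient m (heatF m t f) x ^ 2 * h x ∂m ≤
      ∫ x, f x ^ 2 * heatF m t h x ∂m - ∫ x, heatF m t f x ^ 2 * h x ∂m := by
  set A : ℝ := ∫ x, weakGradient m (heatF m t f) x ^ 2 * h x ∂m with hA
  have hK : K < 0 := hS.K_neg
  set Ψ : ℝ → ℝ := fun s => be_Phi m f h t s - 2 * A * be_I K s with hΨ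
  have hIc : Continuous (be_I K) :=
    continuous_iff_continuousAt.2 fun s => (be_I_hasDerivAt hK s).continuousAt
  have hΨc : Continuous Ψ :=
    (be_Phi_continuous hS hf hfB hh hhB t).sub (continuous_const.mul hIc)
  have hder : ∀ s ∈ Ioo (0 : ℝ) t, HasDerivAt Ψ
      (2 * ∫ x, weakGradient m (heatF m (t - s) f) x ^ 2 * heatF m s h x ∂m
        - 2 * A * Real.exp (2 * K * s)) s := fun s hs =>
    (be_Phi_hasDerivAt hS hf hfB hh hhB hs.1 hs.2).sub ((be_I_hasDerivAt hK s).const_mul (2 * A))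
  have hnn : ∀ s ∈ Ioo (0 : ℝ) t,
      0 ≤ 2 * ∫ x, weakGradient m (heatF m (t - s) f) x ^ 2 * heatF m s h x ∂m
        - 2 * A * Real.exp (2 * K * s) := by
    intro s hs
    have hts : 0 < t - s := sub_pos.2 hs.2
    have hu : Sobolev m (heatF m (t - s) f) := (be_need_heat_energy hS hf hts).1
    have h2 := be_two hS hu hh hhB h0 hs.1.le
    have hsg : heatF m s (heatF m (t - s) f) =ᵐ[m] heatF m t f := by
      have := be_need_heat_semigroup hS hf hs.1.le hts.le
      rwa [add_sub_cancel] at this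
    rw [be_need_wg_congr hsg, ← hA] at h2
    set D : ℝ := ∫ x, weakGradient m (heatF m (t - s) f) x ^ 2 * heatF m s h x ∂m
    have hE : Real.exp (2 * K * s) * Real.exp (-2 * K * s) = 1 := by
      rw [← Real.exp_add]; ring_nf; exact Real.exp_zero
    have hpos : 0 < Real.exp (2 * K * s) := Real.exp_pos _
    have h3 : Real.exp (2 * K * s) * A ≤ Real.exp (2 * K * s) * (Real.exp (-2 * K * s) * D) :=
      mul_le_mul_of_nonneg_left h2 hpos.le
    rw [← mul_assoc, hE, one_mul] at h3
    linarith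
  have hmono : MonotoneOn Ψ (Icc 0 t) := by
    refine monotoneOn_of_deriv_nonneg (convex_Icc 0 t) hΨc.continuousOn ?_ ?_
    · rw [interior_Icc]
      exact fun s hs => (hder s hs).differentiableAt.differentiableWithinAt
    · rw [interior_Icc]
      intro s hs
      rw [(hder s hs).deriv]
      exact hnn s hs
  have h01 : Ψ 0 ≤ Ψ t := hmono (left_mem_Icc.2 ht.le) (right_mem_Icc.2 ht.le) ht.le
  have e0 : be_Phi m f h t 0 = ∫ x, heatF m t f x ^ 2 * h x ∂m := by
    unfold be_Phi
    rw [sub_zero]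
    refine integral_congr_ae ?_
    filter_upwards [be_heat_zero hh] with x hx
    rw [hx]
  have et : be_Phi m f h t t = ∫ x, f x ^ 2 * heatF m t h x ∂m := by
    unfold be_Phi
    rw [sub_self]
    refine integral_congr_ae ?_
    filter_upwards [be_heat_zero hf] with x hx
    rw [hx]
  simp only [hΨ, be_I_zero, e0, et, mul_zero, sub_zero] at h01
  linarith

/-- a.e. gradient bound -/
theorem be_four_bdd (hS : Std m K N) {f : X → ℝ} {B : ℝ} (hf : MemLp f 2 m)
    (hfB : AEBdd m f B) {t : ℝ} (ht : 0 < t) :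
    ∀ᵐ x ∂m, weakGradient m (heatF m t f) x ^ 2 ≤ B ^ 2 / (2 * be_I K t) := by
  have hI : 0 < 2 * be_I K t := by
    have := be_I_pos hS.K_neg ht
    positivity
  have hsob : Sobolev m (heatF m t f) := (be_need_heat_energy hS hf ht).1
  have hwg2 : Integrable (fun x => weakGradient m (heatF m t f) x ^ 2) m :=
    hsob.2.2.integrable_sq
  refine be_ae_le_of_setIntegral hS (fun s _ _ => hwg2.integrableOn)
    (fun s _ hms => integrableOn_const hms.ne) ?_
  intro s hs hms
  set h : X → ℝ := s.indicator (fun _ => (1 : ℝ)) with hh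
  have hh2 : MemLp h 2 m := memLp_indicator_const 2 hs 1 (Or.inr hms.ne)
  have hh1 : Integrable h m := (integrable_indicator_iff hs).2 (integrableOn_const hms.ne)
  have hhB : AEBdd m h 1 := by
    refine Eventually.of_forall fun x => ?_
    by_cases hx : x ∈ s <;> simp [hh, hx]
  have hh0 : ∀ᵐ x ∂m, 0 ≤ h x := by
    refine Eventually.of_forall fun x => ?_
    by_cases hx : x ∈ s <;> simp [hh, hx]
  have key := be_four hS hf hfB hh2 hhB hh0 ht
  have hHh0 := be_need_heat_nonneg hS hh2 hh0 t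
  obtain ⟨hHh1, hHhle⟩ := be_need_heat_L1 hS hh2 hh1 hh0 t
  have hinth : ∫ x, h x ∂m = (m s).toReal := by
    rw [hh, integral_indicator hs]
    simp [Measure.real]
  -- left side
  have e1 : ∫ x, weakGradient m (heatF m t f) x ^ 2 * h x ∂m
      = ∫ x in s, weakGradient m (heatF m t f) x ^ 2 ∂m := by
    rw [← integral_indicator hs]
    refine integral_congr_ae (Eventually.of_forall fun x => ?_)
    by_cases hx : x ∈ s <;> simp [hh, hx]
  -- the subtracted term is nonnegative
  have e2 : 0 ≤ ∫ x, heatF m t f x ^ 2 * h x ∂m := by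
    refine integral_nonneg_of_ae ?_
    filter_upwards [hh0] with x hx
    positivity
  -- upper bound
  have e3 : ∫ x, f x ^ 2 * heatF m t h x ∂m ≤ B ^ 2 * (m s).toReal := by
    calc ∫ x, f x ^ 2 * heatF m t h x ∂m ≤ ∫ x, B ^ 2 * heatF m t h x ∂m := by
          refine integral_mono_of_nonneg ?_ (hHh1.const_mul _) ?_
          · filter_upwards [hHh0] with x hx
            positivity
          · filter_upwards [hHh0, hfB] with x hx hfx
            have : f x ^ 2 ≤ B ^ 2 := by
              rw [← sq_abs (f x)]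
              exact pow_le_pow_left₀ (abs_nonneg _) hfx 2
            exact mul_le_mul_of_nonneg_right this hx
      _ = B ^ 2 * ∫ x, heatF m t h x ∂m := integral_const_mul _ _
      _ ≤ B ^ 2 * (m s).toReal := by
          rw [← hinth]
          exact mul_le_mul_of_nonneg_left hHhle (sq_nonneg B)
  rw [e1] at key
  have e4 : ∫ x in s, B ^ 2 / (2 * be_I K t) ∂m = B ^ 2 * (m s).toReal / (2 * be_I K t) := by
    rw [setIntegral_const]
    simp [Measure.real]
    ring
  rw [e4, le_div_iff₀ hI]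
  linarith

/-- Lipschitz representative -/
theorem be_four_lip (hS : Std m K N) {f : X → ℝ} {B : ℝ} (hB : 0 ≤ B) (hf : MemLp f 2 m)
    (hfB : AEBdd m f B) {t : ℝ} (ht : 0 < t) :
    ∃ g : X → ℝ, LipschitzWith (Real.toNNReal (B / Real.sqrt (2 * be_I K t))) g ∧
      g =ᵐ[m] heatF m t f := by
  have hI : 0 < 2 * be_I K t := by
    have := be_I_pos hS.K_neg ht
    positivity
  have hL : 0 ≤ B / Real.sqrt (2 * be_I K t) := div_nonneg hB (Real.sqrt_nonneg _)
  refine be_three hS hL (be_need_heat_energy hS hf ht).1.2.1 ?_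
  filter_upwards [be_four_bdd hS hf hfB ht] with x hx
  refine le_of_sq_le_sq ?_ hL
  rw [div_pow, Real.sq_sqrt hI.le]
  exact hx

end Claimed.Agent.R210.BE.Four
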