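/-
Row 210 (S0432), layer BE.  BE5: Lipschitz regularisation by the resolvent.
-/
import Claimed.Agent.R210.BE.Four

set_option autoImplicit false

open Claims.C0366 Claims.C0366.WeakHessian
open Set Filter MeasureTheory
open scoped ENNReal NNReal Topology

namespace Claimed.Agent.R210.BE.Five

open Claimed.Agent.R210.Defs Claimed.Agent.R210.Defs2 Claimed.Agent.R210.BE.Defs
  Claimed.Agent.R210.BE.Need Claimed.Agent.R210.BE.Ball Claimed.Agent.R210.BE.Leb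
  Claimed.Agent.R210.BE.Two Claimed.Agent.R210.BE.Three Claimed.Agent.R210.BE.Four
  Claimed.Agent.R210.BE.Heat

variable {X : Type*} [MetricSpace X] [MeasurableSpace X] [BorelSpace X]
  [CompleteSpace X] [TopologicalSpace.SeparableSpace X] [ProperSpace X]
variable {m : Measure X} {K N : ℝ}

/-- Lipschitz bounds for the heat flow integrate to Lipschitz bounds for the resolvent. -/
theorem be_res_of_heat (hS : Std m K N) {f : X → ℝ} (hf : MemLp f 2 m) {δ C : ℝ} (hδ : 0 < δ)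
    {φ : ℝ → ℝ} (hφ0 : ∀ t, 0 < t → 0 ≤ φ t)
    (hφ : ∀ t, 0 < t → ∃ g : X → ℝ, LipschitzWith (Real.toNNReal (φ t)) g ∧ g =ᵐ[m] heatF m t f)
    (hint : IntegrableOn (fun t => δ⁻¹ * Real.exp (-t / δ) * φ t) (Ioi 0))
    (hC : ∫ t in Ioi (0 : ℝ), δ⁻¹ * Real.exp (-t / δ) * φ t ≤ C) :
    ∃ g : X → ℝ, LipschitzWith (Real.toNNReal C) g ∧ g =ᵐ[m] resF m δ f := by
  have hC0 : 0 ≤ C := by
    refine le_trans ?_ hC
    refine setIntegral_nonneg measurableSet_Ioi fun t ht => ?_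
    have := hφ0 t ht
    positivity
  refine be_lip_of_avg hS hC0 (be_locInt_of_memLp hS (be_res_memLp δ f)) ?_
  intro x y ϱ hϱ
  set h : X → ℝ := fun z => be_nb m x ϱ z - be_nb m y ϱ z with hh
  have hx2 : MemLp (be_nb m x ϱ) 2 m := be_nb_memLp hS x ϱ 2
  have hy2 : MemLp (be_nb m y ϱ) 2 m := be_nb_memLp hS y ϱ 2
  have hh2 : MemLp h 2 m := hx2.sub hy2
  -- difference of averages as a single integral
  have hdiff : ∀ u : X → ℝ, MemLp u 2 m →
      be_av m u x ϱ - be_av m u y ϱ = ∫ z, u z * h z ∂m := by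
    intro u hu
    unfold be_av
    have i1 : Integrable (fun z => u z * be_nb m x ϱ z) m := hu.integrable_mul hx2
    have i2 : Integrable (fun z => u z * be_nb m y ϱ z) m := hu.integrable_mul hy2
    rw [← integral_sub i1 i2]
    refine integral_congr_ae (Eventually.of_forall fun z => ?_)
    simp only [hh]
    ring
  rw [hdiff _ (be_res_memLp δ f), be_need_laplace hS hf hh2 hδ]
  have hd : 0 ≤ dist x y + 2 * ϱ := by positivity
  have hbound : ∀ t ∈ Ioi (0 : ℝ),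
      ‖δ⁻¹ * Real.exp (-t / δ) * ∫ z, heatF m t f z * h z ∂m‖
        ≤ δ⁻¹ * Real.exp (-t / δ) * φ t * (dist x y + 2 * ϱ) := by
    intro t ht
    obtain ⟨g, hg, hge⟩ := hφ t ht
    have h1 : ∫ z, heatF m t f z * h z ∂m = be_av m g x ϱ - be_av m g y ϱ := by
      rw [← hdiff _ (be_heat_memLp t f), be_av_congr hge x ϱ, be_av_congr hge y ϱ]
    have h2 := be_av_lip hS hg x y hϱ
    rw [Real.coe_toNNReal _ (hφ0 t ht)] at h2
    have hc : 0 ≤ δ⁻¹ * Real.exp (-t / δ) := by positivity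
    rw [h1, norm_mul, Real.norm_eq_abs, Real.norm_eq_abs, abs_of_nonneg hc,
      mul_assoc (δ⁻¹ * Real.exp (-t / δ)) (φ t)]
    exact mul_le_mul_of_nonneg_left h2 hc
  have h3 := norm_integral_le_of_norm_le (μ := volume.restrict (Ioi (0 : ℝ)))
    (hint.mul_const (dist x y + 2 * ϱ))
    ((ae_restrict_mem measurableSet_Ioi).mono hbound)
  rw [Real.norm_eq_abs, integral_mul_const] at h3
  exact h3.trans (mul_le_mul_of_nonneg_right hC hd)

/-- lower bound `2 I_K(t) ≥ 2t / (1 + 2κt)` -/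
theorem be_calc_I_ge {K t : ℝ} (hK : K < 0) (ht : 0 < t) :
    2 * t / (1 + 2 * (-K) * t) ≤ 2 * be_I K t := by
  have hκ : 0 < -K := by linarith
  set z := 2 * (-K) * t with hz
  have hzpos : 0 < z := by positivity
  have h1 : Real.exp (2 * K * t) = (Real.exp z)⁻¹ := by
    rw [← Real.exp_neg]; congr 1; rw [hz]; ring
  have h2 : 1 + z ≤ Real.exp z := by linarith [Real.add_one_le_exp z]
  have h3 : (Real.exp z)⁻¹ ≤ (1 + z)⁻¹ := inv_anti₀ (by linarith) h2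
  have h4 : 2 * be_I K t = (1 - (Real.exp z)⁻¹) / (-K) := by
    unfold be_I; rw [h1]; field_simp; ring
  rw [h4, le_div_iff₀ hκ]
  have h5 : 2 * t / (1 + z) * (-K) = 1 - (1 + z)⁻¹ := by
    have : (1 + z) ≠ 0 := by linarith
    field_simp
    rw [hz]; ring
  rw [h5]
  linarith

/-- `1/√(2 I_K(t)) ≤ t^{-1/2}/√2 + √κ` -/
theorem be_calc_inv_sqrt_le {K t : ℝ} (hK : K < 0) (ht : 0 < t) :
    1 / Real.sqrt (2 * be_I K t) ≤ t ^ ((1 / 2 : ℝ) - 1) / Real.sqrt 2 + Real.sqrt (-K) := by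
  have hκ : 0 < -K := by linarith
  have h0 := be_calc_I_ge hK ht
  have hden : 0 < 1 + 2 * (-K) * t := by positivity
  have hlow : 0 < 2 * t / (1 + 2 * (-K) * t) := by positivity
  have hI : 0 < 2 * be_I K t := lt_of_lt_of_le hlow h0
  have h1 : 1 / (2 * be_I K t) ≤ 1 / (2 * t) + (-K) := by
    calc 1 / (2 * be_I K t) ≤ 1 / (2 * t / (1 + 2 * (-K) * t)) := one_div_le_one_div_of_le hlow h0
      _ = 1 / (2 * t) + (-K) := by field_simp
  have h2 : 1 / Real.sqrt (2 * be_I K t) = Real.sqrt (1 / (2 * be_I K t)) := by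
    rw [Real.sqrt_div zero_le_one, Real.sqrt_one]
  have h3 : t ^ ((1 / 2 : ℝ) - 1) / Real.sqrt 2 = Real.sqrt (1 / (2 * t)) := by
    rw [Real.sqrt_div zero_le_one, Real.sqrt_one, Real.sqrt_mul (by norm_num : (0 : ℝ) ≤ 2),
      Real.sqrt_eq_rpow t, show ((1 / 2 : ℝ) - 1) = -(1 / 2) by norm_num, Real.rpow_neg ht.le]
    field_simp
  rw [h2, h3]
  calc Real.sqrt (1 / (2 * be_I K t)) ≤ Real.sqrt (1 / (2 * t) + (-K)) := Real.sqrt_le_sqrt h1
    _ ≤ Real.sqrt (1 / (2 * t)) + Real.sqrt (-K) := by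
        have ha : 0 ≤ 1 / (2 * t) := by positivity
        rw [Real.sqrt_le_left (by positivity)]
        have s1 := Real.sq_sqrt ha
        have s2 := Real.sq_sqrt hκ.le
        nlinarith [Real.sqrt_nonneg (1 / (2 * t)), Real.sqrt_nonneg (-K)]
/-- calculus 1 -/
theorem be_calc_one {K B δ : ℝ} (hK : K < 0) (hB : 0 ≤ B) (hδ : 0 < δ) (hδ1 : δ ≤ 1) :
    IntegrableOn (fun t => δ⁻¹ * Real.exp (-t / δ) * (B / Real.sqrt (2 * be_I K t))) (Ioi 0) ∧
      ∫ t in Ioi (0 : ℝ), δ⁻¹ * Real.exp (-t / δ) * (B / Real.sqrt (2 * be_I K t)) ≤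
        (2 + Real.sqrt (-K)) * B / Real.sqrt δ := by
  have hr : 0 < δ⁻¹ := inv_pos.2 hδ
  -- the two model integrals
  have key1 := Real.integral_rpow_mul_exp_neg_mul_Ioi (a := 1 / 2) (r := δ⁻¹) (by norm_num) hr
  have hI1 : IntegrableOn (fun t : ℝ => t ^ ((1 / 2 : ℝ) - 1) * Real.exp (-(δ⁻¹ * t))) (Ioi 0) :=
    .of_integral_ne_zero (by rw [key1]; positivity)
  have hI2 : IntegrableOn (fun t : ℝ => Real.exp (-δ⁻¹ * t)) (Ioi 0) :=
    integrableOn_exp_mul_Ioi (by linarith) 0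
  have key2 : ∫ t in Ioi (0 : ℝ), Real.exp (-δ⁻¹ * t) = δ := by
    rw [integral_exp_mul_Ioi (by linarith) 0]
    simp
  -- the majorant
  set ψ : ℝ → ℝ := fun t => (δ⁻¹ * B / Real.sqrt 2) * (t ^ ((1 / 2 : ℝ) - 1) * Real.exp (-(δ⁻¹ * t)))
    + (δ⁻¹ * B * Real.sqrt (-K)) * Real.exp (-δ⁻¹ * t) with hψ
  have hψi : IntegrableOn ψ (Ioi 0) := (hI1.const_mul _).add (hI2.const_mul _)
  have hle : ∀ t ∈ Ioi (0 : ℝ),
      δ⁻¹ * Real.exp (-t / δ) * (B / Real.sqrt (2 * be_I K t)) ≤ ψ t := by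
    intro t ht
    have h1 := be_calc_inv_sqrt_le hK ht
    have e1 : Real.exp (-t / δ) = Real.exp (-(δ⁻¹ * t)) := by
      congr 1; field_simp
    have e2 : Real.exp (-δ⁻¹ * t) = Real.exp (-(δ⁻¹ * t)) := by
      congr 1; ring
    rw [hψ]
    simp only
    rw [e1, e2]
    have hc : 0 ≤ δ⁻¹ * Real.exp (-(δ⁻¹ * t)) * B := by positivity
    calc δ⁻¹ * Real.exp (-(δ⁻¹ * t)) * (B / Real.sqrt (2 * be_I K t))
        = δ⁻¹ * Real.exp (-(δ⁻¹ * t)) * B * (1 / Real.sqrt (2 * be_I K t)) := by ring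
      _ ≤ δ⁻¹ * Real.exp (-(δ⁻¹ * t)) * B * (t ^ ((1 / 2 : ℝ) - 1) / Real.sqrt 2 + Real.sqrt (-K)) :=
          mul_le_mul_of_nonneg_left h1 hc
      _ = _ := by ring
  have hnn : ∀ t : ℝ, 0 ≤ δ⁻¹ * Real.exp (-t / δ) * (B / Real.sqrt (2 * be_I K t)) := by
    intro t; positivity
  have hmeas : Measurable (fun t => δ⁻¹ * Real.exp (-t / δ) * (B / Real.sqrt (2 * be_I K t))) := by
    unfold be_I
    fun_prop
  have hint : IntegrableOn (fun t => δ⁻¹ * Real.exp (-t / δ) * (B / Real.sqrt (2 * be_I K t))) (Ioi 0) := by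
    refine Integrable.mono' hψi hmeas.aestronglyMeasurable ?_
    filter_upwards [ae_restrict_mem measurableSet_Ioi] with t ht
    rw [Real.norm_eq_abs, abs_of_nonneg (hnn t)]
    exact hle t ht
  refine ⟨hint, ?_⟩
  have h1 : ∫ t in Ioi (0 : ℝ), δ⁻¹ * Real.exp (-t / δ) * (B / Real.sqrt (2 * be_I K t))
      ≤ ∫ t in Ioi (0 : ℝ), ψ t := setIntegral_mono_on hint hψi measurableSet_Ioi hle
  refine h1.trans ?_
  have h2 : ∫ t in Ioi (0 : ℝ), ψ t
      = (δ⁻¹ * B / Real.sqrt 2) * ((1 / δ⁻¹) ^ (1 / 2 : ℝ) * Real.Gamma (1 / 2))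
        + (δ⁻¹ * B * Real.sqrt (-K)) * δ := by
    rw [hψ, integral_add (hI1.const_mul _) (hI2.const_mul _), integral_const_mul,
      integral_const_mul, key1, key2]
  rw [h2, Real.Gamma_one_half_eq, one_div, inv_inv, ← Real.sqrt_eq_rpow]
  have hsδ : 0 < Real.sqrt δ := Real.sqrt_pos.2 hδ
  have hsδ1 : Real.sqrt δ ≤ 1 := by
    rw [Real.sqrt_le_left zero_le_one]
    simpa using hδ1
  have hs2 : 1 ≤ Real.sqrt 2 := by
    rw [Real.one_le_sqrt]; norm_num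
  have hsπ : Real.sqrt Real.pi ≤ 2 := by
    rw [Real.sqrt_le_left (by norm_num)]
    nlinarith [Real.pi_le_four]
  have hδs : δ = Real.sqrt δ * Real.sqrt δ := (Real.mul_self_sqrt hδ.le).symm
  have t1 : δ⁻¹ * B / Real.sqrt 2 * (Real.sqrt δ * Real.sqrt Real.pi)
      = (Real.sqrt Real.pi / Real.sqrt 2) * B / Real.sqrt δ := by
    have : δ⁻¹ = (Real.sqrt δ)⁻¹ * (Real.sqrt δ)⁻¹ := by
      rw [← mul_inv, ← hδs]
    rw [this]; field_simp
  have t2 : δ⁻¹ * B * Real.sqrt (-K) * δ = Real.sqrt (-K) * B := by field_simp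
  rw [t1, t2]
  have t3 : Real.sqrt Real.pi / Real.sqrt 2 ≤ 2 := by
    rw [div_le_iff₀ (by positivity)]
    nlinarith
  have t4 : Real.sqrt (-K) * B ≤ Real.sqrt (-K) * B / Real.sqrt δ := by
    rw [le_div_iff₀ hsδ]
    have : 0 ≤ Real.sqrt (-K) * B := by positivity
    nlinarith
  have t5 : (Real.sqrt Real.pi / Real.sqrt 2) * B / Real.sqrt δ ≤ 2 * B / Real.sqrt δ := by
    gcongr
  calc _ ≤ 2 * B / Real.sqrt δ + Real.sqrt (-K) * B / Real.sqrt δ := add_le_add t5 t4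
    _ = _ := by ring

/-- calculus 2 -/
theorem be_calc_two {K L δ : ℝ} (hδ : 0 < δ) (hδK : δ * (-K) < 1) :
    IntegrableOn (fun t => δ⁻¹ * Real.exp (-t / δ) * (Real.exp (-K * t) * L)) (Ioi 0) ∧
      ∫ t in Ioi (0 : ℝ), δ⁻¹ * Real.exp (-t / δ) * (Real.exp (-K * t) * L) = L / (1 + K * δ) := by
  have hpos : 0 < 1 + K * δ := by nlinarith
  have ha : -(1 / δ + K) < 0 := by
    have : 1 / δ + K = (1 + K * δ) / δ := by field_simp
    rw [this, neg_lt_zero]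
    exact div_pos hpos hδ
  have e : (fun t => δ⁻¹ * Real.exp (-t / δ) * (Real.exp (-K * t) * L))
      = fun t => (δ⁻¹ * L) * Real.exp (-(1 / δ + K) * t) := by
    funext t
    have : Real.exp (-(1 / δ + K) * t) = Real.exp (-t / δ) * Real.exp (-K * t) := by
      rw [← Real.exp_add]; congr 1; field_simp; ring
    rw [this]; ring
  rw [e]
  refine ⟨(integrableOn_exp_mul_Ioi ha 0).const_mul _, ?_⟩
  rw [integral_const_mul, integral_exp_mul_Ioi ha 0]
  simp only [mul_zero, Real.exp_zero]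
  have h1 : (1 / δ + K) ≠ 0 := by
    intro h; rw [h] at ha; simp at ha
  field_simp

/-- **BE5** (a). -/
theorem be_five_bdd (hS : Std m K N) {f : X → ℝ} {B δ : ℝ} (hB : 0 ≤ B) (hf : MemLp f 2 m)
    (hfB : AEBdd m f B) (hδ : 0 < δ) (hδ1 : δ ≤ 1) :
    ∃ g : X → ℝ, LipschitzWith (Real.toNNReal ((2 + Real.sqrt (-K)) * B / Real.sqrt δ)) g ∧
      g =ᵐ[m] resF m δ f :=
  be_res_of_heat hS hf hδ
    (fun t ht => div_nonneg hB (Real.sqrt_nonneg _))
    (fun t ht => be_four_lip hS hB hf hfB ht)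
    (be_calc_one hS.K_neg hB hδ hδ1).1 (be_calc_one hS.K_neg hB hδ hδ1).2

/-- heat flow of a function with bounded gradient -/
theorem be_heat_lip_grad (hS : Std m K N) {f : X → ℝ} {L : ℝ} (hL : 0 ≤ L) (hf : Sobolev m f)
    (hfL : ∀ᵐ x ∂m, weakGradient m f x ≤ L) {t : ℝ} (ht : 0 ≤ t) :
    ∃ g : X → ℝ, LipschitzWith (Real.toNNReal (Real.exp (-K * t) * L)) g ∧
      g =ᵐ[m] heatF m t f :=
  be_three hS (mul_nonneg (Real.exp_pos _).le hL) (be_heat_sobolev hS hf ht).2.1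
    (be_two_bdd hS hf hfL ht)

/-- **BE5** (b). -/
theorem be_five_grad (hS : Std m K N) {f : X → ℝ} {L δ : ℝ} (hL : 0 ≤ L) (hf : Sobolev m f)
    (hfL : ∀ᵐ x ∂m, weakGradient m f x ≤ L) (hδ : 0 < δ) (hδK : δ * (-K) < 1) :
    ∃ g : X → ℝ, LipschitzWith (Real.toNNReal (L / (1 + K * δ))) g ∧ g =ᵐ[m] resF m δ f :=
  be_res_of_heat hS hf.1 hδ
    (fun t _ => mul_nonneg (Real.exp_pos _).le hL)
    (fun t ht => be_heat_lip_grad hS hL hf hfL ht.le)
    (be_calc_two hδ hδK).1 (be_calc_two hδ hδK).2.le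

end Claimed.Agent.R210.BE.Five
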