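/-
Row 210 (S0432), layer BE (Bakry-Emery estimates, Sobolev-to-Lipschitz, regularisation): INTERFACE.
Architect of the layer: helper471.  Consumers import this file only.

Setting: `Std m K N` (so `K < 0`), `X` proper.  `heatF`, `resF` as in `R210/Defs2.lean`.
Definitions (`BE/Defs.lean`): `be_nb m x ϱ` (normalised indicator of `closedBall x ϱ`),
`be_av m u x ϱ = ∫ u · be_nb m x ϱ` (average), `be_slope f x = (localSlope f x).toReal`,
`be_I K t = (e^{2Kt} - 1)/(2K) = ∫_0^t e^{2Ks} ds`.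
* BE0 `be_BE0_lebesgue`, `be_BE0_lip` (Lipschitz criterion in terms of averages)
* BE1 `be_BE1_lip`, `be_BE1_ae`, `be_BE1_weak`   (f Lipschitz with compact support)
* BE2 `be_BE2`, `be_BE2_gamma`, `be_BE2_bdd`, `be_BE2_lip`     (f Sobolev)
* BE3 `be_BE3`, `be_BE3_real`                     (Sobolev-to-Lipschitz)
* BE4 `be_BE4`, `be_BE4_gamma`, `be_BE4_bdd`, `be_BE4_lip`      (f in L² and bounded)
* BE5 `be_BE5_bdd`, `be_BE5_grad`                 (resolvent)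
-/
import Claimed.Agent.R210.BE.Five

set_option autoImplicit false

open Claims.C0366 Claims.C0366.WeakHessian
open Set Filter MeasureTheory
open scoped ENNReal NNReal Topology

namespace Claimed.Agent.R210.BE.Ifc

open Claimed.Agent.R210.Defs Claimed.Agent.R210.Defs2 Claimed.Agent.R210.BE.Defs
  Claimed.Agent.R210.BE.Need

variable {X : Type*} [MetricSpace X] [MeasurableSpace X] [BorelSpace X]
  [CompleteSpace X] [TopologicalSpace.SeparableSpace X] [ProperSpace X]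
variable {m : Measure X} {K N : ℝ}

/-- **BE0**: Lebesgue points, along the radii `1/(n+1)`. -/
theorem be_BE0_lebesgue (hS : Std m K N) {u : X → ℝ} (hu : LocallyIntegrable u m) :
    ∀ᵐ x ∂m, Tendsto (fun n : ℕ => be_av m u x (1 / ((n : ℝ) + 1))) atTop (𝓝 (u x)) :=
  Leb.be_lebesgue hS hu

/-- **BE0**: if the averages over closed balls satisfy a Lipschitz estimate then `u` has a Lipschitz
representative. -/
theorem be_BE0_lip (hS : Std m K N) {u : X → ℝ} {L : ℝ} (hL : 0 ≤ L)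
    (hu : LocallyIntegrable u m)
    (h : ∀ x y ϱ, 0 < ϱ → |be_av m u x ϱ - be_av m u y ϱ| ≤ L * (dist x y + 2 * ϱ)) :
    ∃ g : X → ℝ, LipschitzWith (Real.toNNReal L) g ∧ g =ᵐ[m] u :=
  Leb.be_lip_of_avg hS hL hu h

/-- **BE1**: `H_t f` has a Lipschitz representative with constant `e^{-Kt} Lip f`. -/
theorem be_BE1_lip (hS : Std m K N) {f : X → ℝ} {L : ℝ≥0} (hf : LipschitzWith L f)
    (hc : HasCompactSupport f) {t : ℝ} (ht : 0 ≤ t) :
    ∃ g : X → ℝ, LipschitzWith (Real.toNNReal (Real.exp (-K * t) * L)) g ∧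
      g =ᵐ[m] heatF m t f :=
  One.be_one_lip hS hf hc ht

/-- **BE1**: `|D H_t f|² ≤ e^{-2Kt} H_t (lip(f)²)` a.e. -/
theorem be_BE1_ae (hS : Std m K N) {f : X → ℝ} (hf : LipC f) {t : ℝ} (ht : 0 ≤ t) :
    ∀ᵐ x ∂m, weakGradient m (heatF m t f) x ^ 2 ≤
      Real.exp (-2 * K * t) * heatF m t (fun z => be_slope f z ^ 2) x :=
  One.be_one_ae hS hf ht

/-- **BE1**, weak form. -/
theorem be_BE1_weak (hS : Std m K N) {f h : X → ℝ} (hf : LipC f) (hh : MemLp h 2 m)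
    (h0 : ∀ᵐ x ∂m, 0 ≤ h x) {t : ℝ} (ht : 0 ≤ t) :
    ∫ x, weakGradient m (heatF m t f) x ^ 2 * h x ∂m ≤
      Real.exp (-2 * K * t) * ∫ x, be_slope f x ^ 2 * heatF m t h x ∂m :=
  One.be_one_weak hS hf hh h0 ht

/-- **BE2**: `∫ |D H_t f|² h ≤ e^{-2Kt} ∫ |Df|² H_t h`. -/
theorem be_BE2 (hS : Std m K N) {f h : X → ℝ} {B : ℝ} (hf : Sobolev m f) (hh : MemLp h 2 m)
    (hB : AEBdd m h B) (h0 : ∀ᵐ x ∂m, 0 ≤ h x) {t : ℝ} (ht : 0 ≤ t) :
    ∫ x, weakGradient m (heatF m t f) x ^ 2 * h x ∂m ≤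
      Real.exp (-2 * K * t) * ∫ x, weakGradient m f x ^ 2 * heatF m t h x ∂m :=
  Two.be_two hS hf hh hB h0 ht

/-- **BE2** in terms of `gamma`. -/
theorem be_BE2_gamma (hS : Std m K N) {f h : X → ℝ} {B : ℝ} (hf : Sobolev m f)
    (hh : MemLp h 2 m) (hB : AEBdd m h B) (h0 : ∀ᵐ x ∂m, 0 ≤ h x) {t : ℝ} (ht : 0 ≤ t) :
    ∫ x, gamma m (heatF m t f) (heatF m t f) x * h x ∂m ≤
      Real.exp (-2 * K * t) * ∫ x, gamma m f f x * heatF m t h x ∂m := by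
  have h1 : ∫ x, gamma m (heatF m t f) (heatF m t f) x * h x ∂m =
      ∫ x, weakGradient m (heatF m t f) x ^ 2 * h x ∂m := by
    refine integral_congr_ae ?_
    filter_upwards [be_need_gamma_self hS (Heat.be_heat_sobolev hS hf ht).2.1] with x hx
    rw [hx]
  have h2 : ∫ x, gamma m f f x * heatF m t h x ∂m =
      ∫ x, weakGradient m f x ^ 2 * heatF m t h x ∂m := by
    refine integral_congr_ae ?_
    filter_upwards [be_need_gamma_self hS hf.2.1] with x hx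
    rw [hx]
  rw [h1, h2]
  exact Two.be_two hS hf hh hB h0 ht

/-- **BE2**, a.e. consequence. -/
theorem be_BE2_bdd (hS : Std m K N) {f : X → ℝ} {L : ℝ} (hf : Sobolev m f)
    (hL : ∀ᵐ x ∂m, weakGradient m f x ≤ L) {t : ℝ} (ht : 0 ≤ t) :
    ∀ᵐ x ∂m, weakGradient m (heatF m t f) x ≤ Real.exp (-K * t) * L :=
  Two.be_two_bdd hS hf hL ht

/-- **BE2+BE3**: `|Df| ≤ L` a.e. `⟹ H_t f` has an `e^{-Kt} L`-Lipschitz representative. -/
theorem be_BE2_lip (hS : Std m K N) {f : X → ℝ} {L : ℝ} (hL : 0 ≤ L) (hf : Sobolev m f)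
    (hfL : ∀ᵐ x ∂m, weakGradient m f x ≤ L) {t : ℝ} (ht : 0 ≤ t) :
    ∃ g : X → ℝ, LipschitzWith (Real.toNNReal (Real.exp (-K * t) * L)) g ∧
      g =ᵐ[m] heatF m t f :=
  Five.be_heat_lip_grad hS hL hf hfL ht

/-- **BE3** Sobolev-to-Lipschitz (real constant). -/
theorem be_BE3_real (hS : Std m K N) {f : X → ℝ} {L : ℝ} (hL : 0 ≤ L) (hf : LocalSobolev m f)
    (hfL : ∀ᵐ x ∂m, weakGradient m f x ≤ L) :
    ∃ g : X → ℝ, LipschitzWith (Real.toNNReal L) g ∧ g =ᵐ[m] f :=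
  Three.be_three hS hL hf hfL

/-- **BE3** Sobolev-to-Lipschitz. -/
theorem be_BE3 (hS : Std m K N) {f : X → ℝ} {L : ℝ≥0} (hf : LocalSobolev m f)
    (hfL : ∀ᵐ x ∂m, weakGradient m f x ≤ L) :
    ∃ g : X → ℝ, LipschitzWith L g ∧ g =ᵐ[m] f := by
  obtain ⟨g, hg, hgf⟩ := Three.be_three hS L.2 hf hfL
  exact ⟨g, by simpa using hg, hgf⟩

/-- **BE4**: `2 I_K(t) ∫ |D H_t f|² h ≤ ∫ f² H_t h - ∫ (H_t f)² h`. -/
theorem be_BE4 (hS : Std m K N) {f h : X → ℝ} {B B' : ℝ} (hf : MemLp f 2 m)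
    (hfB : AEBdd m f B) (hh : MemLp h 2 m) (hhB : AEBdd m h B') (h0 : ∀ᵐ x ∂m, 0 ≤ h x)
    {t : ℝ} (ht : 0 < t) :
    2 * be_I K t * ∫ x, weakGradient m (heatF m t f) x ^ 2 * h x ∂m ≤
      ∫ x, f x ^ 2 * heatF m t h x ∂m - ∫ x, heatF m t f x ^ 2 * h x ∂m :=
  Four.be_four hS hf hfB hh hhB h0 ht

/-- **BE4** in terms of `gamma`. -/
theorem be_BE4_gamma (hS : Std m K N) {f h : X → ℝ} {B B' : ℝ} (hf : MemLp f 2 m)
    (hfB : AEBdd m f B) (hh : MemLp h 2 m) (hhB : AEBdd m h B') (h0 : ∀ᵐ x ∂m, 0 ≤ h x)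
    {t : ℝ} (ht : 0 < t) :
    2 * be_I K t * ∫ x, gamma m (heatF m t f) (heatF m t f) x * h x ∂m ≤
      ∫ x, f x ^ 2 * heatF m t h x ∂m - ∫ x, heatF m t f x ^ 2 * h x ∂m := by
  have h1 : ∫ x, gamma m (heatF m t f) (heatF m t f) x * h x ∂m =
      ∫ x, weakGradient m (heatF m t f) x ^ 2 * h x ∂m := by
    refine integral_congr_ae ?_
    filter_upwards [be_need_gamma_self hS (be_need_heat_energy hS hf ht).1.2.1] with x hx
    rw [hx]
  rw [h1]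
  exact Four.be_four hS hf hfB hh hhB h0 ht

/-- **BE4**: `|D H_t f|² ≤ B² / (2 I_K(t))` a.e. if `|f| ≤ B` a.e. -/
theorem be_BE4_bdd (hS : Std m K N) {f : X → ℝ} {B : ℝ} (hf : MemLp f 2 m)
    (hfB : AEBdd m f B) {t : ℝ} (ht : 0 < t) :
    ∀ᵐ x ∂m, weakGradient m (heatF m t f) x ^ 2 ≤ B ^ 2 / (2 * be_I K t) :=
  Four.be_four_bdd hS hf hfB ht

/-- **BE4**: `L^∞`-to-Lipschitz regularisation. -/
theorem be_BE4_lip (hS : Std m K N) {f : X → ℝ} {B : ℝ} (hB : 0 ≤ B) (hf : MemLp f 2 m)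
    (hfB : AEBdd m f B) {t : ℝ} (ht : 0 < t) :
    ∃ g : X → ℝ, LipschitzWith (Real.toNNReal (B / Real.sqrt (2 * be_I K t))) g ∧
      g =ᵐ[m] heatF m t f :=
  Four.be_four_lip hS hB hf hfB ht

theorem be_I_pos' {t : ℝ} (hK : K < 0) (ht : 0 < t) : 0 < be_I K t := Four.be_I_pos hK ht

/-- **BE5**: `|f| ≤ B`, `0 < δ ≤ 1` `⟹ resF m δ f` has a Lipschitz representative with constant
`(2 + √(-K)) B / √δ`. -/
theorem be_BE5_bdd (hS : Std m K N) {f : X → ℝ} {B δ : ℝ} (hB : 0 ≤ B) (hf : MemLp f 2 m)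
    (hfB : AEBdd m f B) (hδ : 0 < δ) (hδ1 : δ ≤ 1) :
    ∃ g : X → ℝ, LipschitzWith (Real.toNNReal ((2 + Real.sqrt (-K)) * B / Real.sqrt δ)) g ∧
      g =ᵐ[m] resF m δ f :=
  Five.be_five_bdd hS hB hf hfB hδ hδ1

/-- **BE5**: `|Df| ≤ L` a.e., `δ (-K) < 1` `⟹ resF m δ f` has a Lipschitz representative with
constant `L / (1 + K δ)`. -/
theorem be_BE5_grad (hS : Std m K N) {f : X → ℝ} {L δ : ℝ} (hL : 0 ≤ L) (hf : Sobolev m f)
    (hfL : ∀ᵐ x ∂m, weakGradient m f x ≤ L) (hδ : 0 < δ) (hδK : δ * (-K) < 1) :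
    ∃ g : X → ℝ, LipschitzWith (Real.toNNReal (L / (1 + K * δ))) g ∧ g =ᵐ[m] resF m δ f :=
  Five.be_five_grad hS hL hf hfL hδ hδK

end Claimed.Agent.R210.BE.Ifc
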